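import Vale.Agent.P213.Cyl.Cylinder

/-!
# P213, Cyl: cells as functors out of the globe
-/

open CategoryTheory

noncomputable section

namespace Vale.Agent.P213.Cyl

open Steiner

variable {K : Cx} {Y Z : OmegaCat} {i j m n : ℕ}

theorem faceY_faceY (Y : OmegaCat) (i j : ℕ) (b c : Bool) (y : Y.Cell) :
    faceY Y i b (faceY Y j c y) = if i < j then faceY Y i b y else faceY Y j c y := by
  rcases lt_trichotomy i j with h | rfl | h
  · rw [if_pos h]
    cases b <;> cases c
    exacts [Y.src_src_lo h y, Y.src_tgt_lo h y, Y.tgt_src_lo h y, Y.tgt_tgt_lo h y]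
  · rw [if_neg (lt_irrefl i)]
    cases b <;> cases c
    exacts [Y.src_src i y, Y.src_tgt i y, Y.tgt_src i y, Y.tgt_tgt i y]
  · rw [if_neg h.not_gt]
    cases b <;> cases c
    exacts [Y.src_src_hi h y, Y.src_tgt_hi h y, Y.tgt_src_hi h y, Y.tgt_tgt_hi h y]

theorem exists_cls (y : Y.Cell) :
    ∃ F : nu gw ⟶ Y, ∀ q b, F.toFun (gcell q b) = faceY Y q b y := by
  have hlo : ∀ q b c, faceY Y q b (faceY Y (q + 1) c y) = faceY Y q b y := fun q b c =>
    (faceY_faceY Y q (q + 1) b c y).trans (if_pos (Nat.lt_succ_self q))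
  have hself : ∀ q b, faceY Y q false (faceY Y q b y) = faceY Y q b y := fun q b =>
    (faceY_faceY Y q q false b y).trans (if_neg (lt_irrefl q))
  obtain ⟨F, hF, -⟩ := exists_lift (X := Y) good_gw (fun q b => faceY Y q b y) hself
    (fun q b F hF => ⟨(hlo q false b).trans ((hF q le_rfl false).symm.trans (congrArg F.toFun
        (((face_gcell q (q + 1) false b).trans (if_pos (Nat.lt_succ_self q))).symm))),
      (hlo q true b).trans ((hF q le_rfl true).symm.trans (congrArg F.toFun
        (((face_gcell q (q + 1) true b).trans (if_pos (Nat.lt_succ_self q))).symm)))⟩)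
  exact ⟨F, hF⟩

/-- The functor classifying a cell. -/
def cls (y : Y.Cell) : nu gw ⟶ Y := (exists_cls y).choose

theorem cls_gcell (y : Y.Cell) (q : ℕ) (b : Bool) :
    (cls y).toFun (gcell q b) = faceY Y q b y :=
  (exists_cls y).choose_spec q b

theorem cls_ext (y : Y.Cell) (F : nu gw ⟶ Y)
    (h : ∀ q b, F.toFun (gcell q b) = faceY Y q b y) : F = cls y :=
  hom_ext good_gw F (cls y) fun q b => (h q b).trans (cls_gcell y q b).symm

theorem cls_map (F : nu K ⟶ Y) (t : Cell K) :
    nuMap (cellHom t) ≫ F = cls (F.toFun t) :=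
  cls_ext _ _ fun q b => (congrArg F.toFun (map_gcell t q b)).trans (fun_face F q b t)

theorem cls_comp_hom (y : Y.Cell) (f : Y ⟶ Z) : cls y ≫ f = cls (f.toFun y) := by
  refine cls_ext _ _ fun q b => ?_
  show f.toFun ((cls y).toFun (gcell q b)) = _
  rw [cls_gcell]
  cases b
  exacts [f.map_src q y, f.map_tgt q y]

theorem cls_at {y : Y.Cell} {N : ℕ} (h : Y.src N y = y) : (cls y).toFun (gcell N false) = y :=
  (cls_gcell y N false).trans h

theorem col_cls {y : Y.Cell} {N : ℕ} (h : Y.src N y = y) :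
    nuMap (col N false) ≫ cls y = cls y :=
  (cls_map (cls y) (gcell N false)).trans (congrArg cls (cls_at h))

/-- Composable cells glue on the grid. -/
theorem exists_glueGw (hij : i < j) (x : Fin m → Fin n → Y.Cell)
    (hi : ∀ (a a' : Fin m) b, (a : ℕ) + 1 = a' → Y.tgt i (x a b) = Y.src i (x a' b))
    (hj : ∀ a (b b' : Fin n), (b : ℕ) + 1 = b' → Y.tgt j (x a b) = Y.src j (x a b')) :
    ∃ Ψ : nu (grid i j m n) ⟶ Y, ∀ a b, nuMap (incl a b) ≫ Ψ = cls (x a b) := by
  have key : ∀ k (u w : Y.Cell), Y.tgt k u = Y.src k w → ∀ q < k, ∀ ε,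
      faceY Y q ε u = faceY Y q ε w := fun k u w h q hq ε => by
    have := congrArg (faceY Y q ε) (show faceY Y k true u = faceY Y k false w from h)
    rwa [faceY_faceY, faceY_faceY, if_pos hq, if_pos hq] at this
  obtain ⟨Ψ, hΨ, -⟩ := exists_glue (X := Y) (good_grid (m := m) (n := n) hij)
    (fun _ : Fin m × Fin n => gw) (fun _ => good_gw) (fun t => incl t.1 t.2)
    (fun t _ => gel t.1 t.2) (fun t _ => gel_inj t.1 t.2) (fun _ _ _ => rfl)
    (fun q p => incl_cover q p) (fun t => cls (x t.1 t.2)) (fun t t' q c c' h => by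
      refine (cls_gcell (x t.1 t.2) q c).trans (Eq.trans ?_ (cls_gcell (x t'.1 t'.2) q c').symm)
      refine nf_congr (A := fun _ => Y.Cell) hij (fun q a b ε => faceY Y q ε (x a b))
        ?_ ?_ ?_ ?_ (congrArg Subtype.val h)
      · exact fun q hq a a' b ε e => key i _ _ (hi a a' b e) q hq ε
      · exact fun a a' b e => hi a a' b e
      · exact fun q hq a b b' ε e => key j _ _ (hj a b b' e) q hq ε
      · exact fun a b b' e => hj a b b' e)
  exact ⟨Ψ, fun a b => hΨ (a, b)⟩

theorem gw_gc {Ψ : nu (grid i j m n) ⟶ Y} {y : Y.Cell} {a : Fin m} {b : Fin n} {N : ℕ}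
    (hΨ : nuMap (incl a b) ≫ Ψ = cls y) (hN : Y.src N y = y) :
    Ψ.toFun (gc (i := i) (j := j) N a b) = y :=
  (congrArg (fun F : nu gw ⟶ Y => F.toFun (gcell N false)) hΨ).trans (cls_at hN)

end Vale.Agent.P213.Cyl
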