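import Vale.Agent.P213.Cyl.Pair

/-!
# P213, Cyl: the omega-category of cylinders

A cylinder in `Y` is a functor `nu (I ⊗ gw) ⟶ Y` of bounded degree. Composites are defined by
gluing on `I ⊗` (pair of globes); all laws follow from those of `nu` of a grid, as every family of
composable cylinders is the image of one functor `nu (I ⊗ grid) ⟶ Y`.
-/

open CategoryTheory

noncomputable section

namespace Vale.Agent.P213.Cyl

open Steiner

variable {K L M : Cx} {Y Z : OmegaCat} {i j m n : ℕ}

/-- Source or target in an omega-category. -/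
def faceY (Y : OmegaCat) (n : ℕ) (b : Bool) (y : Y.Cell) : Y.Cell :=
  bif b then Y.tgt n y else Y.src n y

theorem fun_face (F : nu K ⟶ Y) (n : ℕ) (b : Bool) (x : Cell K) :
    F.toFun (face n b x) = faceY Y n b (F.toFun x) := by
  cases b
  exacts [F.map_src n x, F.map_tgt n x]

/-- Precomposition with `I ⊗ f`. -/
def prec (f : CxHom K L) (Φ : nu (ivl L) ⟶ Y) : nu (ivl K) ⟶ Y := nuMap (ivlMap f) ≫ Φ

theorem prec_apply (f : CxHom K L) (Φ : nu (ivl L) ⟶ Y) (z : Cell (ivl K)) :
    (prec f Φ).toFun z = Φ.toFun (z.map (ivlMap f)) := rfl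

theorem prec_prec (f : CxHom K L) (g : CxHom L M) (Φ : nu (ivl M) ⟶ Y) :
    prec f (prec g Φ) = prec (f.andThen g) Φ := by
  rw [prec, prec, prec, ivlMap_andThen, nuMap_andThen, Category.assoc]

theorem prec_map (f : CxHom K L) (Φ : nu (ivl L) ⟶ Y) (g : Y ⟶ Z) :
    prec f (Φ ≫ g) = prec f Φ ≫ g :=
  (Category.assoc _ _ _).symm

theorem prec_cellHom_face (Φ : nu (ivl K) ⟶ Y) (n : ℕ) (b : Bool) (t : Cell K) :
    prec (col n b) (prec (cellHom t) Φ) = prec (cellHom (face n b t)) Φ := by
  rw [prec_prec, cellHom_face]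

/-- A cylinder. -/
@[ext]
structure CylCell (Y : OmegaCat) : Type where
  /-- The functor on `I ⊗` globe. -/
  val : nu (ivl gw) ⟶ Y
  bdd : ∃ N, prec (col N false) val = val

theorem prec_col_of_le {F : nu (ivl gw) ⟶ Y} {N k : ℕ} (hN : prec (col N false) F = F)
    (h : N ≤ k) : prec (col k false) F = F := by
  conv_lhs => rw [← hN]
  rw [prec_prec, col_andThen, if_neg (by omega)]
  split_ifs with e
  · subst e; exact hN
  · exact hN

theorem CylCell.exists_bound (x : CylCell Y) : ∃ N, ∀ k, N ≤ k → prec (col k false) x.val = x.val :=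
  x.bdd.imp fun _ h _ hk => prec_col_of_le h hk

/-- Source or target of a cylinder. -/
def cface (n : ℕ) (b : Bool) (x : CylCell Y) : CylCell Y where
  val := prec (col n b) x.val
  bdd := ⟨n, by rw [prec_prec, col_andThen, if_neg (lt_irrefl n), if_pos rfl]⟩

theorem cface_cface (i j : ℕ) (b c : Bool) (x : CylCell Y) : cface i b (cface j c x) =
    if i < j then cface i b x else if i = j then cface j c x else cface j c x := by
  refine CylCell.ext ?_
  show prec (col i b) (prec (col j c) x.val) = _
  rw [prec_prec, col_andThen]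
  split_ifs <;> first | rfl | (rename_i h; subst h; rfl)

/-- Families of cylinders composable along `i` and `j`. -/
def AdjPre (i j : ℕ) (x : Fin m → Fin n → (nu (ivl gw) ⟶ Y)) : Prop :=
  (∀ (a a' : Fin m) b, (a : ℕ) + 1 = a' →
    prec (col i true) (x a b) = prec (col i false) (x a' b)) ∧
    ∀ a (b b' : Fin n), (b : ℕ) + 1 = b' →
      prec (col j true) (x a b) = prec (col j false) (x a b')

theorem map_col_pt (k : ℕ) (c : Bool) (q : ℕ) (ε ε' δ : Bool)
    (h : gcell q ε' = if q < k then gcell q ε else gcell k c) :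
    (atom (good_ivl good_gw) (IB.pt δ ε : (ivl gw).B q)).map (ivlMap (col k c)) =
      atom (good_ivl good_gw) (IB.pt δ ε' : (ivl gw).B q) :=
  map_atom_pt good_gw good_gw _ ((map_col_gcell q k ε c).trans h.symm) δ

theorem map_col_mid (k : ℕ) (c : Bool) (q : ℕ) (ε ε' : Bool)
    (h : gcell q ε' = if q < k then gcell q ε else gcell k c) :
    (atom (good_ivl good_gw) (IB.mid ε : (ivl gw).B (q + 1))).map (ivlMap (col k c)) =
      atom (good_ivl good_gw) (IB.mid ε' : (ivl gw).B (q + 1)) :=
  map_atom_mid_same good_gw good_gw _ ((map_col_gcell q k ε c).trans h.symm)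

/-- Composable cylinders glue on `I ⊗ grid`. -/
theorem exists_glueIvl (hij : i < j) (x : Fin m → Fin n → (nu (ivl gw) ⟶ Y))
    (hx : AdjPre i j x) :
    ∃ Φ : nu (ivl (grid i j m n)) ⟶ Y, ∀ a b, prec (incl a b) Φ = x a b := by
  have key : ∀ (a a' : Fin m) (b b' : Fin n) (k : ℕ),
      prec (col k true) (x a b) = prec (col k false) (x a' b') → ∀ q ≤ k, ∀ ε : Bool,
      (∀ δ, (x a b).toFun (atom (good_ivl good_gw)
          (IB.pt δ (if q < k then ε else true) : (ivl gw).B q)) =
        (x a' b').toFun (atom (good_ivl good_gw)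
          (IB.pt δ (if q < k then ε else false) : (ivl gw).B q))) ∧
      (x a b).toFun (atom (good_ivl good_gw)
          (IB.mid (if q < k then ε else true) : (ivl gw).B (q + 1))) =
        (x a' b').toFun (atom (good_ivl good_gw)
          (IB.mid (if q < k then ε else false) : (ivl gw).B (q + 1))) := by
    intro a a' b b' k h q hq ε
    have e : ∀ c, gcell q (if q < k then ε else c) = if q < k then gcell q ε else gcell k c := by
      intro c
      rcases hq.lt_or_eq with hq | rfl
      · simp [hq]
      · simp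
    refine ⟨fun δ => ?_, ?_⟩
    · have := congrArg (fun F : nu (ivl gw) ⟶ Y =>
        F.toFun (atom (good_ivl good_gw) (IB.pt δ ε : (ivl gw).B q))) h
      exact ((congrArg (x a b).toFun (map_col_pt k true q ε _ δ (e true))).symm.trans this).trans
        (congrArg (x a' b').toFun (map_col_pt k false q ε _ δ (e false)))
    · have := congrArg (fun F : nu (ivl gw) ⟶ Y =>
        F.toFun (atom (good_ivl good_gw) (IB.mid ε : (ivl gw).B (q + 1)))) h
      exact ((congrArg (x a b).toFun (map_col_mid k true q ε _ (e true))).symm.trans this).trans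
        (congrArg (x a' b').toFun (map_col_mid k false q ε _ (e false)))
  obtain ⟨Φ, hΦ, -⟩ := exists_glue (X := Y) (good_ivl (good_grid (m := m) (n := n) hij))
    (fun _ : Fin m × Fin n => ivl gw) (fun _ => good_ivl good_gw)
    (fun t => ivlMap (incl t.1 t.2))
    (fun t => ibMap (fun _ => gel t.1 t.2))
    (fun t q => ibMap_inj _ (fun _ => gel_inj t.1 t.2) q)
    (fun t q c => ivlMap_f _ _ (fun _ _ => rfl) q c)
    (fun q p => by
      cases p with
      | pt δ p =>
        obtain ⟨t, ε, h⟩ := incl_cover _ p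
        exact ⟨t, IB.pt δ ε, congrArg (IB.pt δ) h⟩
      | mid p =>
        obtain ⟨t, ε, h⟩ := incl_cover _ p
        exact ⟨t, IB.mid ε, congrArg IB.mid h⟩)
    (fun t => x t.1 t.2) (fun t t' q c c' h => by
      cases c with
      | pt δ ε =>
        cases c' with
        | pt δ' ε' =>
          simp only [ibMap, IB.pt.injEq] at h
          obtain ⟨rfl, h⟩ := h
          refine nf_congr (A := fun _ => Y.Cell) hij (fun q a b ε =>
            (x a b).toFun (atom (good_ivl good_gw) (IB.pt δ ε : (ivl gw).B q))) ?_ ?_ ?_ ?_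
            (congrArg Subtype.val h)
          · intro q hq a a' b ε e
            simpa [hq] using (key a a' b b i (hx.1 a a' b e) q hq.le ε).1 δ
          · intro a a' b e
            simpa using (key a a' b b i (hx.1 a a' b e) i le_rfl true).1 δ
          · intro q hq a b b' ε e
            simpa [hq] using (key a a b b' j (hx.2 a b b' e) q hq.le ε).1 δ
          · intro a b b' e
            simpa using (key a a b b' j (hx.2 a b b' e) j le_rfl true).1 δ
        | mid ε' => simp [ibMap] at h
      | mid ε =>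
        cases c' with
        | pt δ' ε' => simp [ibMap] at h
        | mid ε' =>
          simp only [ibMap, IB.mid.injEq] at h
          refine nf_congr (A := fun _ => Y.Cell) hij (fun q a b ε =>
            (x a b).toFun (atom (good_ivl good_gw) (IB.mid ε : (ivl gw).B (q + 1)))) ?_ ?_ ?_ ?_
            (congrArg Subtype.val h)
          · intro q hq a a' b ε e
            simpa [hq] using (key a a' b b i (hx.1 a a' b e) q hq.le ε).2
          · intro a a' b e
            simpa using (key a a' b b i (hx.1 a a' b e) i le_rfl true).2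
          · intro q hq a b b' ε e
            simpa [hq] using (key a a b b' j (hx.2 a b b' e) q hq.le ε).2
          · intro a b b' e
            simpa using (key a a b b' j (hx.2 a b b' e) j le_rfl true).2)
  exact ⟨Φ, fun a b => hΦ (a, b)⟩

theorem glue_ext (hij : i < j) {Φ Φ' : nu (ivl (grid i j m n)) ⟶ Y}
    (h : ∀ a b, prec (incl a b) Φ = prec (incl a b) Φ') : Φ = Φ' := by
  refine hom_ext (good_ivl (good_grid hij)) Φ Φ' fun q p => ?_
  obtain ⟨t, c, rfl⟩ : ∃ (t : Fin m × Fin n) (c : (ivl gw).B q),
      ibMap (fun _ => gel t.1 t.2) q c = p := by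
    cases p with
    | pt δ p =>
      obtain ⟨t, ε, h⟩ := incl_cover _ p
      exact ⟨t, IB.pt δ ε, congrArg (IB.pt δ) h⟩
    | mid p =>
      obtain ⟨t, ε, h⟩ := incl_cover _ p
      exact ⟨t, IB.mid ε, congrArg IB.mid h⟩
  rw [← map_atom (good_ivl good_gw) (good_ivl (good_grid hij)) (ivlMap (incl t.1 t.2))
    (ibMap (fun _ => gel t.1 t.2)) (fun q => ibMap_inj _ (fun _ => gel_inj t.1 t.2) q)
    (fun q c => ivlMap_f _ _ (fun _ _ => rfl) q c) c]
  exact congrArg (fun F : nu (ivl gw) ⟶ Y => F.toFun (atom (good_ivl good_gw) c)) (h t.1 t.2)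

/-- A glued pair. -/
def pairGlue (i : ℕ) (x y : nu (ivl gw) ⟶ Y) (h : prec (col i true) x = prec (col i false) y) :
    nu (ivl (grid i (i + 1) 2 1)) ⟶ Y :=
  (exists_glueIvl (Nat.lt_succ_self i) (two x y)
    ⟨adj_two (P := fun u v => prec (col i true) u = prec (col i false) v) h,
      fun _ b b' e => by omega⟩).choose

theorem pairGlue_spec (i : ℕ) (x y : nu (ivl gw) ⟶ Y)
    (h : prec (col i true) x = prec (col i false) y) (a : Fin 2) (b : Fin 1) :
    prec (incl a b) (pairGlue i x y h) = two x y a b :=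
  (exists_glueIvl (Nat.lt_succ_self i) (two x y)
    ⟨adj_two (P := fun u v => prec (col i true) u = prec (col i false) v) h,
      fun _ b b' e => by omega⟩).choose_spec a b

/-- The composite on the level of functors. -/
def compVal (i : ℕ) (x y : nu (ivl gw) ⟶ Y) (h : prec (col i true) x = prec (col i false) y) :
    nu (ivl gw) ⟶ Y :=
  prec (delta i) (pairGlue i x y h)

theorem compVal_eq {i : ℕ} {x y : nu (ivl gw) ⟶ Y}
    (h : prec (col i true) x = prec (col i false) y) (Φ : nu (ivl K) ⟶ Y) (t s : Cell K)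
    (hts : t.tgt i = s.src i) (hx : prec (cellHom t) Φ = x) (hy : prec (cellHom s) Φ = y) :
    compVal i x y h = prec (cellHom (Cell.comp i t s)) Φ := by
  have e : pairGlue i x y h =
      prec (gridHom (Nat.lt_succ_self i) (two t s) (adjCells_two hts)) Φ := by
    refine glue_ext (Nat.lt_succ_self i) fun a b => ?_
    rw [pairGlue_spec, prec_prec, incl_gridHom]
    simp only [two]
    split_ifs
    exacts [hx.symm, hy.symm]
  rw [compVal, e, prec_prec, delta_gridHom i t s hts]

theorem prec_gc {Φ : nu (ivl (grid i j m n)) ⟶ Y} {x : nu (ivl gw) ⟶ Y} {N : ℕ}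
    {a : Fin m} {b : Fin n} (hΦ : prec (incl a b) Φ = x) (hN : prec (col N false) x = x) :
    prec (cellHom (gc (i := i) (j := j) N a b)) Φ = x := by
  rw [cellHom_map, ← prec_prec, hΦ]
  exact hN

theorem compVal_bdd {i : ℕ} (x y : CylCell Y)
    (h : prec (col i true) x.val = prec (col i false) y.val) :
    ∃ N, prec (col N false) (compVal i x.val y.val h) = compVal i x.val y.val h := by
  obtain ⟨N, hN⟩ := x.exists_bound
  obtain ⟨N', hN'⟩ := y.exists_bound
  have hc := (adjCells_gc (m := 2) (n := 1) (Nat.lt_succ_self i)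
    (show i + 1 < N + N' + i + 2 by omega)).1 0 1 0 rfl
  have e := compVal_eq h (pairGlue i x.val y.val h) _ _ hc
    (prec_gc (pairGlue_spec i x.val y.val h 0 0) (hN _ (by omega)))
    (prec_gc (pairGlue_spec i x.val y.val h 1 0) (hN' _ (by omega)))
  obtain ⟨M, hM⟩ := (nu (grid i (i + 1) 2 1)).finite_dim (Cell.comp i
    (gc (i := i) (j := i + 1) (N + N' + i + 2) (0 : Fin 2) (0 : Fin 1))
    (gc (i := i) (j := i + 1) (N + N' + i + 2) (1 : Fin 2) (0 : Fin 1)))
  refine ⟨M, ?_⟩
  rw [e, prec_cellHom_face]
  exact congrArg (fun z => prec (cellHom z) _) hM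

open Classical in
/-- The composite of cylinders (the first one when they are not composable). -/
def ccomp (i : ℕ) (x y : CylCell Y) : CylCell Y :=
  if h : prec (col i true) x.val = prec (col i false) y.val then
    ⟨compVal i x.val y.val h, compVal_bdd x y h⟩
  else x

/-- The cylinder over a cell. -/
def curryCell (Φ : nu (ivl K) ⟶ Y) (t : Cell K) : CylCell Y where
  val := prec (cellHom t) Φ
  bdd := by
    obtain ⟨N, hN⟩ := (nu K).finite_dim t
    exact ⟨N, by rw [prec_cellHom_face]; exact congrArg (fun z => prec (cellHom z) Φ) hN⟩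

theorem cface_curryCell (Φ : nu (ivl K) ⟶ Y) (n : ℕ) (b : Bool) (t : Cell K) :
    cface n b (curryCell Φ t) = curryCell Φ (face n b t) :=
  CylCell.ext (prec_cellHom_face Φ n b t)

theorem ccomp_curryCell (Φ : nu (ivl K) ⟶ Y) {i : ℕ} {t s : Cell K} (hts : t.tgt i = s.src i) :
    ccomp i (curryCell Φ t) (curryCell Φ s) = curryCell Φ (Cell.comp i t s) := by
  have h : prec (col i true) (curryCell Φ t).val = prec (col i false) (curryCell Φ s).val :=
    (prec_cellHom_face Φ i true t).trans
      ((congrArg (fun z => prec (cellHom z) Φ) hts).trans (prec_cellHom_face Φ i false s).symm)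
  rw [ccomp, dif_pos h]
  exact CylCell.ext (compVal_eq h Φ t s hts rfl rfl)

/-- Every composable family of cylinders comes from one functor. -/
theorem exists_family (hij : i < j) (x : Fin m → Fin n → CylCell Y)
    (hx : AdjPre i j fun a b => (x a b).val) :
    ∃ (Φ : nu (ivl (grid i j m n)) ⟶ Y) (c : Fin m → Fin n → Cell (grid i j m n)),
      AdjCells i j c ∧ ∀ a b, x a b = curryCell Φ (c a b) := by
  obtain ⟨Φ, hΦ⟩ := exists_glueIvl hij _ hx
  choose N hN using fun t : Fin m × Fin n => (x t.1 t.2).exists_bound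
  let M := Finset.univ.sup N + j + 1
  refine ⟨Φ, gc M, adjCells_gc hij (show j < M by omega), fun a b => CylCell.ext ?_⟩
  exact (prec_gc (hΦ a b) (hN (a, b) M
    (le_trans (Finset.le_sup (f := N) (Finset.mem_univ _)) (by omega)))).symm

theorem exists_pair (i : ℕ) (x y : CylCell Y) (h : cface i true x = cface i false y) :
    ∃ (Φ : nu (ivl (grid i (i + 1) 2 1)) ⟶ Y) (s t : Cell (grid i (i + 1) 2 1)),
      s.tgt i = t.src i ∧ x = curryCell Φ s ∧ y = curryCell Φ t := by
  obtain ⟨Φ, c, hc, hx⟩ := exists_family (Nat.lt_succ_self i) (two x y)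
    ⟨adj_two (P := fun u v : CylCell Y => prec (col i true) u.val = prec (col i false) v.val)
      (congrArg CylCell.val h), fun _ b b' e => by omega⟩
  exact ⟨Φ, c 0 0, c 1 0, hc.1 0 1 0 rfl, hx 0 0, hx 1 0⟩

theorem curryCell_gcell (x : CylCell Y) :
    ∃ N, x = curryCell x.val (gcell N false) :=
  x.bdd.imp fun _ h => CylCell.ext h.symm

end Vale.Agent.P213.Cyl
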