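import Vale.Agent.P213.Cyl.Classify

/-!
# P213, Cyl: the path object of transformations

`gamma Y` is the omega-category of cylinders, `ev` its two ends, `cst` the constant cylinders,
`curry` the transpose of a functor out of `nu (I ⊗ K)`.
-/

open CategoryTheory

noncomputable section

namespace Vale.Agent.P213

open Steiner Cyl

/-- The omega-category of cylinders in `Y`. -/
def gammaObj (Y : OmegaCat) : OmegaCat where
  Cell := CylCell Y
  src i := cface i false
  tgt i := cface i true
  comp := ccomp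
  src_src i x := by rw [cface_cface, if_neg (lt_irrefl i), if_pos rfl]
  tgt_src i x := by rw [cface_cface, if_neg (lt_irrefl i), if_pos rfl]
  src_tgt i x := by rw [cface_cface, if_neg (lt_irrefl i), if_pos rfl]
  tgt_tgt i x := by rw [cface_cface, if_neg (lt_irrefl i), if_pos rfl]
  src_src_lo h x := by rw [cface_cface, if_pos h]
  src_tgt_lo h x := by rw [cface_cface, if_pos h]
  tgt_src_lo h x := by rw [cface_cface, if_pos h]
  tgt_tgt_lo h x := by rw [cface_cface, if_pos h]
  src_src_hi h x := by rw [cface_cface, if_neg h.not_gt, if_neg h.ne']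
  src_tgt_hi h x := by rw [cface_cface, if_neg h.not_gt, if_neg h.ne']
  tgt_src_hi h x := by rw [cface_cface, if_neg h.not_gt, if_neg h.ne']
  tgt_tgt_hi h x := by rw [cface_cface, if_neg h.not_gt, if_neg h.ne']
  finite_dim x := x.bdd.imp fun _ h => CylCell.ext h
  src_comp i x y h := by
    obtain ⟨Φ, s, t, hst, rfl, rfl⟩ := exists_pair i x y h
    rw [ccomp_curryCell Φ hst, cface_curryCell, cface_curryCell]
    exact congrArg (curryCell Φ) (Cell.src_comp i s t hst)
  tgt_comp i x y h := by
    obtain ⟨Φ, s, t, hst, rfl, rfl⟩ := exists_pair i x y h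
    rw [ccomp_curryCell Φ hst, cface_curryCell, cface_curryCell]
    exact congrArg (curryCell Φ) (Cell.tgt_comp i s t hst)
  src_comp_hi {i j} hij x y h := by
    obtain ⟨Φ, s, t, hst, rfl, rfl⟩ := exists_pair i x y h
    rw [ccomp_curryCell Φ hst, cface_curryCell, cface_curryCell, cface_curryCell,
      ccomp_curryCell Φ (t := face j false s) (s := face j false t)
        (Cell.composable_hi hij hst).1]
    exact congrArg (curryCell Φ) (Cell.src_comp_hi hij s t hst)
  tgt_comp_hi {i j} hij x y h := by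
    obtain ⟨Φ, s, t, hst, rfl, rfl⟩ := exists_pair i x y h
    rw [ccomp_curryCell Φ hst, cface_curryCell, cface_curryCell, cface_curryCell,
      ccomp_curryCell Φ (t := face j true s) (s := face j true t)
        (Cell.composable_hi hij hst).2]
    exact congrArg (curryCell Φ) (Cell.tgt_comp_hi hij s t hst)
  unit_left i x := by
    obtain ⟨N, hx⟩ := curryCell_gcell x
    rw [hx, cface_curryCell,
      ccomp_curryCell x.val (t := face i false (gcell N false)) (Cell.src_self i _).2.2.1]
    exact congrArg (curryCell x.val) (Cell.unit_left i (gcell N false))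
  unit_right i x := by
    obtain ⟨N, hx⟩ := curryCell_gcell x
    rw [hx, cface_curryCell,
      ccomp_curryCell x.val (s := face i true (gcell N false)) (Cell.src_self i _).2.1.symm]
    exact congrArg (curryCell x.val) (Cell.unit_right i (gcell N false))
  assoc i x y z h h' := by
    obtain ⟨Φ, c, hc, hx⟩ := exists_family (m := 3) (n := 1) (Nat.lt_succ_self i)
      (fun a _ => if a = 0 then x else if a = 1 then y else z)
      ⟨fun a a' b e => by
        fin_cases a <;> fin_cases a' <;> simp at e ⊢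
        exacts [congrArg CylCell.val h, congrArg CylCell.val h'],
        fun _ b b' e => by omega⟩
    have ex : x = curryCell Φ (c 0 0) := by simpa using hx 0 0
    have ey : y = curryCell Φ (c 1 0) := by simpa using hx 1 0
    have ez : z = curryCell Φ (c 2 0) := by simpa using hx 2 0
    have h1 := hc.1 0 1 0 rfl
    have h2 := hc.1 1 2 0 rfl
    rw [ex, ey, ez, ccomp_curryCell Φ h1, ccomp_curryCell Φ h2,
      ccomp_curryCell Φ ((Cell.tgt_comp i _ _ h1).trans h2),
      ccomp_curryCell Φ (h1.trans (Cell.src_comp i _ _ h2).symm)]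
    exact congrArg (curryCell Φ) (Cell.assoc i _ _ _ h1 h2)
  interchange {i j} hij x y z w hxy hxz hyw := by
    have l : ∀ (b c : Bool) (u : CylCell Y), cface i b (cface j c u) = cface i b u :=
      fun b c u => by rw [cface_cface, if_pos hij]
    have hzw : cface i true z = cface i false w := by
      rw [← l true false z, ← hxz, l true true x, hxy, ← l false true y, hyw, l false false w]
    obtain ⟨Φ, c, hc, hx⟩ := exists_family (m := 2) (n := 2) hij
      (fun a b => if a = 0 then (if b = 0 then x else z) else (if b = 0 then y else w))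
      ⟨fun a a' b e => by
        fin_cases a <;> fin_cases a' <;> fin_cases b <;> simp at e ⊢
        exacts [congrArg CylCell.val hxy, congrArg CylCell.val hzw],
        fun a b b' e => by
        fin_cases a <;> fin_cases b <;> fin_cases b' <;> simp at e ⊢
        exacts [congrArg CylCell.val hxz, congrArg CylCell.val hyw]⟩
    have ex : x = curryCell Φ (c 0 0) := by simpa using hx 0 0
    have ey : y = curryCell Φ (c 1 0) := by simpa using hx 1 0
    have ez : z = curryCell Φ (c 0 1) := by simpa using hx 0 1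
    have ew : w = curryCell Φ (c 1 1) := by simpa using hx 1 1
    have a1 := hc.1 0 1 0 rfl
    have a2 := hc.1 0 1 1 rfl
    have b1 := hc.2 0 0 1 rfl
    have b2 := hc.2 1 0 1 rfl
    have e1 : (Cell.comp i (c 0 0) (c 1 0)).tgt j = (Cell.comp i (c 0 1) (c 1 1)).src j := by
      rw [Cell.tgt_comp_hi hij _ _ a1, Cell.src_comp_hi hij _ _ a2, b1, b2]
    have e2 : (Cell.comp j (c 0 0) (c 0 1)).tgt i = (Cell.comp j (c 1 0) (c 1 1)).src i := by
      rw [← (Cell.src_lo hij _).2.2.1, Cell.src_comp j _ _ b1, (Cell.src_lo hij _).2.2.1, a1,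
        ← (Cell.src_lo hij (c 1 0)).1, ← Cell.src_comp j _ _ b2, (Cell.src_lo hij _).1]
    rw [ex, ey, ez, ew, ccomp_curryCell Φ a1, ccomp_curryCell Φ a2, ccomp_curryCell Φ b1,
      ccomp_curryCell Φ b2, ccomp_curryCell Φ e1, ccomp_curryCell Φ e2]
    exact congrArg (curryCell Φ) (Cell.interchange hij _ _ _ _ a1 b1 b2)

/-- The underlying functor of a cylinder. -/
abbrev cylVal {Y : OmegaCat} (x : (gammaObj Y).Cell) : nu (ivl gw) ⟶ Y := CylCell.val x

/-- The image of a cylinder. -/
def cmap {Y Z : OmegaCat} (f : Y ⟶ Z) (x : CylCell Y) : CylCell Z :=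
  ⟨x.val ≫ f, x.bdd.imp fun _ h => by rw [prec_map, h]⟩

theorem cmap_curryCell {K : Cx} {Y Z : OmegaCat} (f : Y ⟶ Z) (Φ : nu (ivl K) ⟶ Y) (t : Cell K) :
    cmap f (curryCell Φ t) = curryCell (Φ ≫ f) t :=
  CylCell.ext (prec_map _ _ f).symm

/-- The functor on cylinders of a functor. -/
def gammaMap {Y Z : OmegaCat} (f : Y ⟶ Z) : gammaObj Y ⟶ gammaObj Z where
  toFun := cmap f
  map_src i x := CylCell.ext (prec_map _ _ f).symm
  map_tgt i x := CylCell.ext (prec_map _ _ f).symm
  map_comp i x y h := by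
    obtain ⟨Φ, s, t, hst, rfl, rfl⟩ := exists_pair i x y h
    show cmap f (ccomp i _ _) = ccomp i (cmap f _) (cmap f _)
    rw [ccomp_curryCell Φ hst, cmap_curryCell, cmap_curryCell, cmap_curryCell,
      ccomp_curryCell (Φ ≫ f) hst]

/-- Cylinders, as a functor. -/
def gamma : OmegaCat ⥤ OmegaCat where
  obj := gammaObj
  map := gammaMap
  map_id Y := OmegaCat.Hom.ext (funext fun x => CylCell.ext (Category.comp_id _))
  map_comp f g := OmegaCat.Hom.ext (funext fun x => CylCell.ext (Category.assoc _ _ _).symm)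

/-- The end of a cylinder. -/
def evFun {Y : OmegaCat} (δ : Bool) (x : CylCell Y) : Y.Cell :=
  x.val.toFun ((gcell x.exists_bound.choose false).map (ivlEnd gw δ))

theorem evFun_eq {Y : OmegaCat} (δ : Bool) (x : CylCell Y) {N : ℕ}
    (hN : prec (col N false) x.val = x.val) :
    evFun δ x = x.val.toFun ((gcell N false).map (ivlEnd gw δ)) := by
  have h : ∀ N k, prec (col N false) x.val = x.val → N ≤ k →
      x.val.toFun ((gcell k false).map (ivlEnd gw δ)) =
        x.val.toFun ((gcell N false).map (ivlEnd gw δ)) := by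
    intro N k h hk
    refine (congrArg (fun F : nu (ivl gw) ⟶ Y => F.toFun ((gcell k false).map (ivlEnd gw δ)))
      h.symm).trans (congrArg x.val.toFun ?_)
    show ((gcell k false).map (ivlEnd gw δ)).map (ivlMap (col N false)) = _
    rw [Cell.map_map, end_ivlMap, ← Cell.map_map, map_col_gcell, if_neg hk.not_gt]
  unfold evFun
  obtain hb := x.exists_bound.choose_spec
  rcases le_total x.exists_bound.choose N with hle | hle
  · exact (h _ N (hb _ le_rfl) hle).symm
  · exact h N _ hN hle

theorem evFun_curryCell {K : Cx} {Y : OmegaCat} (Φ : nu (ivl K) ⟶ Y) (δ : Bool) (t : Cell K) :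
    evFun δ (curryCell Φ t) = Φ.toFun (t.map (ivlEnd K δ)) := by
  obtain ⟨N, hN⟩ := (nu K).finite_dim t
  rw [evFun_eq δ (curryCell Φ t) (N := N) (by
    show prec (col N false) (prec (cellHom t) Φ) = prec (cellHom t) Φ
    rw [prec_cellHom_face]; exact congrArg (fun z => prec (cellHom z) Φ) hN)]
  refine congrArg Φ.toFun ?_
  show ((gcell N false).map (ivlEnd gw δ)).map (ivlMap (cellHom t)) = _
  rw [Cell.map_map, end_ivlMap, ← Cell.map_map, map_gcell]
  exact congrArg (Cell.map (ivlEnd K δ)) hN

theorem evFun_face {Y : OmegaCat} (δ : Bool) (n : ℕ) (b : Bool) (x : CylCell Y) :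
    evFun δ (cface n b x) = faceY Y n b (evFun δ x) := by
  obtain ⟨N, hx⟩ := curryCell_gcell x
  rw [hx, cface_curryCell, evFun_curryCell, evFun_curryCell]
  exact fun_face (nuMap (ivlEnd gw δ) ≫ x.val) n b (gcell N false)

/-- One end of cylinders, as a functor. -/
def evHom (δ : Bool) (Y : OmegaCat) : gammaObj Y ⟶ Y where
  toFun := evFun δ
  map_src i x := evFun_face δ i false x
  map_tgt i x := evFun_face δ i true x
  map_comp i x y h := by
    obtain ⟨Φ, s, t, hst, rfl, rfl⟩ := exists_pair i x y h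
    show evFun δ (ccomp i _ _) = _
    rw [ccomp_curryCell Φ hst, evFun_curryCell, evFun_curryCell, evFun_curryCell]
    exact (nuMap (ivlEnd _ δ) ≫ Φ).map_comp i s t hst

/-- The ends of a cylinder. -/
def ev (δ : Bool) : gamma ⟶ 𝟭 OmegaCat where
  app := evHom δ
  naturality Y Z f := OmegaCat.Hom.ext (funext fun x => by
    show evFun δ ((gammaMap f).toFun x) = f.toFun (evFun δ x)
    obtain ⟨N, hN⟩ := CylCell.bdd x
    rw [evFun_eq δ x hN, evFun_eq δ ((gammaMap f).toFun x) (N := N)
      (by show prec _ (_ ≫ f) = _ ≫ f; rw [prec_map, hN])]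
    rfl)

/-- The first end. -/
def ev₀ : gamma ⟶ 𝟭 OmegaCat := ev false

/-- The second end. -/
def ev₁ : gamma ⟶ 𝟭 OmegaCat := ev true

/-- The transpose of a functor out of `nu (I ⊗ K)`. -/
def curry {K : Cx} {Y : OmegaCat} (Φ : nu (ivl K) ⟶ Y) : nu K ⟶ gamma.obj Y where
  toFun := curryCell Φ
  map_src i x := (cface_curryCell Φ i false x).symm
  map_tgt i x := (cface_curryCell Φ i true x).symm
  map_comp i x y h := (ccomp_curryCell Φ h).symm

theorem curry_ev {K : Cx} {Y : OmegaCat} (Φ : nu (ivl K) ⟶ Y) (δ : Bool) :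
    curry Φ ≫ (ev δ).app Y = nuMap (ivlEnd K δ) ≫ Φ :=
  OmegaCat.Hom.ext (funext fun t => evFun_curryCell Φ δ t)

theorem nuMap_curry {K L : Cx} {Y : OmegaCat} (f : CxHom K L) (Φ : nu (ivl L) ⟶ Y) :
    nuMap f ≫ curry Φ = curry (nuMap (ivlMap f) ≫ Φ) :=
  OmegaCat.Hom.ext (funext fun t => CylCell.ext (by
    show prec (cellHom (t.map f)) Φ = prec (cellHom t) (prec f Φ)
    rw [prec_prec]
    exact congrArg (fun c => prec c Φ) (cellHom_map f t)))

theorem curry_map {K : Cx} {Y Z : OmegaCat} (Φ : nu (ivl K) ⟶ Y) (g : Y ⟶ Z) :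
    curry Φ ≫ gamma.map g = curry (Φ ≫ g) :=
  OmegaCat.Hom.ext (funext fun t => CylCell.ext (prec_map _ _ g).symm)

/-- The constant cylinder at a cell. -/
def cstFun {Y : OmegaCat} (y : Y.Cell) : CylCell Y where
  val := nuMap (ivlProj gw) ≫ cls y
  bdd := by
    obtain ⟨N, hN⟩ := Y.finite_dim y
    refine ⟨N, ?_⟩
    rw [prec, ← Category.assoc, ← nuMap_andThen, ivlMap_proj, nuMap_andThen, Category.assoc,
      col_cls hN]

theorem cstFun_map {K : Cx} {Y : OmegaCat} (F : nu K ⟶ Y) (t : Cell K) :
    cstFun (F.toFun t) = curryCell (nuMap (ivlProj K) ≫ F) t := by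
  refine CylCell.ext ?_
  show nuMap (ivlProj gw) ≫ cls (F.toFun t) = prec (cellHom t) (nuMap (ivlProj K) ≫ F)
  rw [prec, ← cls_map F t, ← Category.assoc, ← Category.assoc, ← nuMap_andThen, ← nuMap_andThen,
    ivlMap_proj]

theorem cstFun_face {Y : OmegaCat} (n : ℕ) (b : Bool) (y : Y.Cell) :
    cface n b (cstFun y) = cstFun (faceY Y n b y) := by
  obtain ⟨N, hN⟩ := Y.finite_dim y
  conv_rhs => rw [← cls_at hN, ← fun_face (cls y) n b, cstFun_map]
  conv_lhs => rw [← cls_at hN, cstFun_map, cface_curryCell]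

/-- Constant cylinders on a category. -/
def cstHom (Y : OmegaCat) : Y ⟶ gammaObj Y where
  toFun := cstFun
  map_src i y := (cstFun_face i false y).symm
  map_tgt i y := (cstFun_face i true y).symm
  map_comp i x y h := by
    obtain ⟨Ψ, hΨ⟩ := exists_glueGw (Nat.lt_succ_self i) (two x y)
      (adj_two (P := fun u v => Y.tgt i u = Y.src i v) h) (fun _ b b' e => by omega)
    obtain ⟨N, hN⟩ := Y.finite_dim x
    obtain ⟨N', hN'⟩ := Y.finite_dim y
    have up : ∀ (z : Y.Cell) N k, Y.src N z = z → N ≤ k → Y.src k z = z := fun z N k hz hk => by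
      rcases hk.lt_or_eq with hk | rfl
      · rw [← hz, Y.src_src_hi hk]
      · exact hz
    have ex := gw_gc (N := N + N' + i + 2) (hΨ 0 0) (up x N _ hN (by omega))
    have ey := gw_gc (N := N + N' + i + 2) (hΨ 1 0) (up y N' _ hN' (by omega))
    have hst := (adjCells_gc (m := 2) (n := 1) (Nat.lt_succ_self i)
      (show i + 1 < N + N' + i + 2 by omega)).1 0 1 0 rfl
    show cstFun (Y.comp i x y) = ccomp i (cstFun x) (cstFun y)
    refine (congrArg₂ (fun u v => cstFun (Y.comp i u v)) ex ey).symm.trans ?_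
    refine (congrArg cstFun (Ψ.map_comp i _ _ hst).symm).trans ?_
    refine (cstFun_map Ψ _).trans ?_
    refine (ccomp_curryCell _ hst).symm.trans ?_
    exact congrArg₂ (ccomp i) ((cstFun_map Ψ _).symm.trans (congrArg cstFun ex))
      ((cstFun_map Ψ _).symm.trans (congrArg cstFun ey))

/-- Constant cylinders. -/
def cst : 𝟭 OmegaCat ⟶ gamma where
  app := cstHom
  naturality Y Z f := OmegaCat.Hom.ext (funext fun y => CylCell.ext (by
    show nuMap (ivlProj gw) ≫ cls (f.toFun y) = (nuMap (ivlProj gw) ≫ cls y) ≫ f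
    rw [Category.assoc, cls_comp_hom]))

theorem cst_ev (δ : Bool) : cst ≫ ev δ = 𝟙 _ := by
  refine NatTrans.ext (funext fun Y => OmegaCat.Hom.ext (funext fun y => ?_))
  show evFun δ (cstFun y) = y
  obtain ⟨N, hN⟩ := Y.finite_dim y
  refine (congrArg (fun z => evFun δ (cstFun z)) (cls_at hN)).symm.trans ?_
  rw [cstFun_map, evFun_curryCell]
  show (cls y).toFun (((gcell N false).map (ivlEnd gw δ)).map (ivlProj gw)) = y
  refine (congrArg (cls y).toFun ?_).trans (cls_at hN)
  rw [Cell.map_map, end_ivlProj]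
  exact congrArg (fun F : nu gw ⟶ nu gw => F.toFun (gcell N false)) (nuMap_id gw)

theorem cst_ev₀ : cst ≫ ev₀ = 𝟙 _ := cst_ev false

theorem cst_ev₁ : cst ≫ ev₁ = 𝟙 _ := cst_ev true

theorem gamma_dimLE (n : ℕ∞) (Y : OmegaCat) (h : OmegaCat.dimLE n Y) :
    OmegaCat.dimLE n (gamma.obj Y) := by
  intro m hm x
  refine CylCell.ext ?_
  let F : nu (ivl gw) ⟶ Y := CylCell.val x
  let G : nu (ivl gw) ⟶ Y := prec (col m false) F
  show G = F
  have hY : ∀ z, Y.src m z = z := h m hm
  have hm' : gcell m false = (gcell (m + 1) false).src m :=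
    ((face_gcell m (m + 1) false false).trans (if_pos (Nat.lt_succ_self m))).symm
  have ht' : gcell m true = (gcell (m + 1) false).tgt m :=
    ((face_gcell m (m + 1) true false).trans (if_pos (Nat.lt_succ_self m))).symm
  have top : ∀ δ ε, F.toFun (atom (good_ivl good_gw) (IB.pt δ ε : (ivl gw).B m)) =
      F.toFun (atom (good_ivl good_gw) (IB.pt δ false : (ivl gw).B m)) := by
    intro δ ε
    cases ε with
    | false => rfl
    | true =>
      let H : nu gw ⟶ Y := nuMap (ivlEnd gw δ) ≫ F
      refine (congrArg F.toFun (atom_pt good_gw δ (true : gw.B m))).trans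
        (Eq.trans ?_ (congrArg F.toFun (atom_pt good_gw δ (false : gw.B m))).symm)
      show H.toFun (gcell m true) = H.toFun (gcell m false)
      refine (congrArg H.toFun ht').trans ((H.map_tgt m _).trans ?_)
      refine Eq.trans ?_ ((H.map_src m _).symm.trans (congrArg H.toFun hm'.symm))
      conv_lhs => rw [← hY (H.toFun (gcell (m + 1) false)), Y.tgt_src]
  refine hom_ext (good_ivl good_gw) G F fun q b => ?_
  refine (hY _).symm.trans (Eq.trans ?_ (hY _))
  rw [← G.map_src, ← F.map_src]
  refine FunUpTo.ext_atoms (good_ivl good_gw) (FunUpTo.ofHom G m) (FunUpTo.ofHom F m) ?_ _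
    ((nu (ivl gw)).src_src m _)
  intro p hp c
  show F.toFun ((atom (good_ivl good_gw) c).map (ivlMap (col m false))) = F.toFun _
  cases c with
  | pt δ ε =>
    rcases hp.lt_or_eq with hp | rfl
    · exact congrArg F.toFun (map_col_pt m false p ε ε δ (if_pos hp).symm)
    · exact (congrArg F.toFun
        (map_col_pt p false p ε false δ (if_neg (lt_irrefl p)).symm)).trans (top δ ε).symm
  | @mid p ε => exact congrArg F.toFun (map_col_mid m false p ε ε (if_pos (by omega)).symm)

/-- A constant transformation. -/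
theorem curry_proj {K : Cx} {Y : OmegaCat} (F : nu K ⟶ Y) :
    curry (nuMap (ivlProj K) ≫ F) = F ≫ cst.app Y :=
  OmegaCat.Hom.ext (funext fun t => (cstFun_map F t).symm)

end Vale.Agent.P213
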