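import Vale.Agent.P213.Cyl.Trans
import Vale.Agent.P213.Cyl.Gamma

/-!
# P213, Cyl: the path object `gamma` as `CylData` and `TransData`

The only input not in `Cyl/Gamma` is that the two ends give the same maps on homotopy classes
of nerves (`nerve_ev_eq`).
-/

open CategoryTheory

noncomputable section

namespace Vale.Agent.P213

variable (hev : ∀ (Y : OmegaCat) (K : SSet.{0}), IsKan K →
  precompClass (nerve.map (ev₀.app Y)) K = precompClass (nerve.map (ev₁.app Y)) K)

/-- The path object of transformations. -/
abbrev cylData : CylData :=
  ⟨gamma, ev₀, ev₁, cst, cst_ev₀, cst_ev₁, gamma_dimLE, hev⟩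

/-- Its transpose. -/
def curryData : CurryData (cylData hev) where
  curry := curry
  curry_ev₀ F := curry_ev F false
  curry_ev₁ F := curry_ev F true
  nuMap_curry := nuMap_curry
  curry_map := curry_map
  curry_proj := curry_proj

/-- Its transformations from positive homotopies. -/
def cylTransData : TransData (cylData hev) :=
  (curryData hev).transData

end Vale.Agent.P213
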