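import Vale.Agent.P213.Cyl.Pair

/-!
# P213, Cyl: cylinders over atoms, skeleta

The atom of an interior element of `I ⊗ K` depends on the atom under it by a formula which commutes
with chain maps. `skel K n` is the part of `K` of degree at most `n`.
-/

open CategoryTheory

noncomputable section

namespace Vale.Agent.P213.Cyl

open Steiner

variable {K L : Cx}

theorem atom_mid_all (hK : Good K) {n : ℕ} (b : K.B n) (q : ℕ) :
    atomNeg (ivl K) (IB.mid b) (q + 1) =
        ptL K false (q + 1) (atomNeg K b (q + 1)) + midL K q (atomPos K b q) ∧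
      atomPos (ivl K) (IB.mid b) (q + 1) =
        ptL K true (q + 1) (atomPos K b (q + 1)) + midL K q (atomNeg K b q) := by
  by_cases h : q ≤ n
  · exact atom_mid hK b q h
  · have a := down_above (K := ivl K) (show n + 1 < q + 1 by omega)
      (Finsupp.single (IB.mid b : (ivl K).B (n + 1)) (1 : ℤ))
    simp only [atomNeg, atomPos] at a ⊢
    rw [a.1, a.2, (down_above (show n < q + 1 by omega) _).1,
      (down_above (show n < q + 1 by omega) _).2, (down_above (show n < q by omega) _).1,
      (down_above (show n < q by omega) _).2]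
    simp

/-- A map which sends an atom to an atom sends the interior atom over it to that over the image. -/
theorem map_atom_mid (hK : Good K) (hL : Good L) (f : CxHom K L) {n m : ℕ} (b : K.B n)
    (c : L.B m) (h : (atom hK b).map f = atom hL c) :
    (atom (good_ivl hK) (IB.mid b : (ivl K).B (n + 1))).map (ivlMap f) =
      atom (good_ivl hL) (IB.mid c : (ivl L).B (m + 1)) := by
  have hn : ∀ q, f.app q (atomNeg K b q) = atomNeg L c q := fun q =>
    congrArg (fun z : Cell L => z.neg q) h
  have hp : ∀ q, f.app q (atomPos K b q) = atomPos L c q := fun q =>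
    congrArg (fun z : Cell L => z.pos q) h
  refine Cell.ext' fun q => ?_
  show (ivlMap f).app q (atomNeg (ivl K) (IB.mid b) q) = _ ∧
    (ivlMap f).app q (atomPos (ivl K) (IB.mid b) q) = _
  have ep : ∀ ε q (v : K.B q →₀ ℤ) (w : L.B q →₀ ℤ), f.app q v = w →
      (ivlMap f).app q (ptL K ε q v) = ptL L ε q w := fun ε q v w e => by rw [ivlMap_pt, e]
  have em : ∀ q (v : K.B q →₀ ℤ) (w : L.B q →₀ ℤ), f.app q v = w →
      (ivlMap f).app (q + 1) (midL K q v) = midL L q w := fun q v w e => by rw [ivlMap_mid, e]
  cases q with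
  | zero =>
    simp only [atom_neg, atom_pos, (atom_mid_zero hK b).1, (atom_mid_zero hK b).2,
      (atom_mid_zero hL c).1, (atom_mid_zero hL c).2]
    exact ⟨ep _ _ _ _ (hn 0), ep _ _ _ _ (hp 0)⟩
  | succ q =>
    simp only [atom_neg, atom_pos, (atom_mid_all hK b q).1, (atom_mid_all hK b q).2,
      (atom_mid_all hL c q).1, (atom_mid_all hL c q).2, map_add]
    exact ⟨congrArg₂ (· + ·) (ep _ _ _ _ (hn _)) (em _ _ _ (hp _)),
      congrArg₂ (· + ·) (ep _ _ _ _ (hp _)) (em _ _ _ (hn _))⟩

/-- The part of degree at most `n`. -/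
abbrev skel (K : Cx) (n : ℕ) : Cx where
  B q := {_b : K.B q // q ≤ n}
  d q b := (K.d q b.1).subtypeDomain _
  e b := K.e b.1

/-- Back into the whole complex. -/
def skelL (K : Cx) (n q : ℕ) : ((skel K n).B q →₀ ℤ) →ₗ[ℤ] (K.B q →₀ ℤ) :=
  Finsupp.lmapDomain ℤ ℤ Subtype.val

theorem skelL_subtypeDomain {n q : ℕ} (h : q ≤ n) (v : K.B q →₀ ℤ) :
    skelL K n q (v.subtypeDomain fun _ => q ≤ n) = v := by
  classical
  refine Finsupp.ext fun x => ?_
  exact Finsupp.mapDomain_apply Subtype.val_injective _ (⟨x, h⟩ : (skel K n).B q)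

theorem skelL_inj (n q : ℕ) : Function.Injective (skelL K n q) :=
  Finsupp.mapDomain_injective Subtype.val_injective

theorem bd_skelL (n q : ℕ) (v : (skel K n).B (q + 1) →₀ ℤ) :
    bd K q (skelL K n (q + 1) v) = skelL K n q (bd (skel K n) q v) := by
  induction v using Finsupp.induction_linear with
  | zero => simp
  | add a b ha hb => simp [map_add, ha, hb]
  | single b m =>
    rw [skelL, Finsupp.lmapDomain_apply, Finsupp.mapDomain_single, bd_single, bd_single]
    refine Eq.trans ?_ (map_smul (skelL K n q) m _).symm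
    exact congrArg (m • ·) (skelL_subtypeDomain (by have := b.2; omega) _).symm

theorem eps_skelL (n : ℕ) (v : (skel K n).B 0 →₀ ℤ) :
    eps K (skelL K n 0 v) = eps (skel K n) v := by
  induction v using Finsupp.induction_linear with
  | zero => simp
  | add a b ha hb => simp [map_add, ha, hb]
  | single b m => rw [skelL, Finsupp.lmapDomain_apply, Finsupp.mapDomain_single, eps_single,
      eps_single]

theorem atom_skelL (n : ℕ) {p : ℕ} (b : (skel K n).B p) (q : ℕ) :
    atomNeg K b.1 q = skelL K n q (atomNeg (skel K n) b q) ∧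
      atomPos K b.1 q = skelL K n q (atomPos (skel K n) b q) :=
  atom_map (K := skel K n) (L := K) (fun _ => Subtype.val) (fun _ => Subtype.val_injective)
    (fun q v => bd_skelL n q v) b q

theorem good_skel (hK : Good K) (n : ℕ) : Good (skel K n) where
  bd_bd q b := skelL_inj n q (by
    rw [← bd_skelL, map_zero, show skelL K n (q + 1) ((skel K n).d (q + 1) b) = K.d (q + 1) b.1
      from skelL_subtypeDomain (by have := b.2; omega) _]
    exact hK.bd_bd q b.1)
  eps_bd b := by
    rw [← eps_skelL, show skelL K n 0 ((skel K n).d 0 b) = K.d 0 b.1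
      from skelL_subtypeDomain (Nat.zero_le n) _]
    exact hK.eps_bd b.1
  unit_neg p b := by rw [← eps_skelL, ← (atom_skelL n b 0).1]; exact hK.unit_neg p b.1
  unit_pos p b := by rw [← eps_skelL, ← (atom_skelL n b 0).2]; exact hK.unit_pos p b.1
  order := by
    obtain ⟨r, hr, hd⟩ := hK.order
    refine ⟨fun x y => r ⟨x.1, x.2.1⟩ ⟨y.1, y.2.1⟩,
      isStrictTotalOrder_key hr (fun x : Σ q, (skel K n).B q => (⟨x.1, x.2.1⟩ : Σ q, K.B q)) ?_,
      fun q b a => hd q b.1 a.1⟩
    rintro ⟨q, b, hb⟩ ⟨q', b', hb'⟩ h
    cases h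
    rfl

/-- The inclusion of the skeleton. -/
def skelIncl (K : Cx) (n : ℕ) : CxHom (skel K n) K where
  f q b := Finsupp.single b.1 1
  nonneg q b c := by
    classical
    rw [Finsupp.single_apply]; split_ifs <;> simp
  comm q b := by
    rw [Finsupp.sum_single_index (by simp), one_smul]
    refine (skelL_subtypeDomain (n := n) (by have := b.2; omega) (K.d q b.1)).symm.trans ?_
    rw [skelL, Finsupp.lmapDomain_apply, Finsupp.mapDomain]
    exact Finsupp.sum_congr fun c _ => (Finsupp.smul_single_one _ _).symm
  aug b := by rw [Finsupp.sum_single_index (by simp), one_mul]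

theorem skelIncl_app (n q : ℕ) (v : (skel K n).B q →₀ ℤ) :
    (skelIncl K n).app q v = skelL K n q v :=
  LinearMap.congr_fun (CxHom.app_eq_of (skelIncl K n) (fun q => skelL K n q)
    (fun q b => by simp [skelIncl, skelL, Finsupp.mapDomain_single]) q) v

theorem map_skel_atom (hK : Good K) (n : ℕ) {p : ℕ} (b : (skel K n).B p) :
    (atom (good_skel hK n) b).map (skelIncl K n) = atom hK b.1 :=
  Cell.ext' fun q => ⟨(skelIncl_app n q _).trans (atom_skelL n b q).1.symm,
    (skelIncl_app n q _).trans (atom_skelL n b q).2.symm⟩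

/-- A cell of dimension at most `n` comes from the skeleton. -/
theorem exists_skel {n : ℕ} {y : Cell K} (hy : y.src n = y) :
    ∃ z : Cell (skel K n), z.map (skelIncl K n) = y := by
  have hz : ∀ q, n < q → y.neg q = 0 ∧ y.pos q = 0 := fun q hq => by
    rw [← hy]
    simp [Cell.src, show ¬ q ≤ n by omega, show ¬ q < n by omega, show ¬ q = n by omega]
  have key : ∀ q (v : K.B q →₀ ℤ), (n < q → v = 0) →
      skelL K n q (v.subtypeDomain fun _ => q ≤ n) = v := fun q v hv => by
    rcases le_or_gt q n with h | h
    · exact skelL_subtypeDomain h v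
    · simp [hv h]
  have kn := fun q => key q (y.neg q) fun h => (hz q h).1
  have kp := fun q => key q (y.pos q) fun h => (hz q h).2
  refine ⟨{ neg := fun q => (y.neg q).subtypeDomain _
            pos := fun q => (y.pos q).subtypeDomain _
            neg_nonneg := fun q c => y.neg_nonneg q c.1
            pos_nonneg := fun q c => y.pos_nonneg q c.1
            bounded := ⟨n + 1, fun q hq => by simp [hz q (by omega)]⟩
            aug_neg := by rw [← eps_skelL, kn]; exact y.aug_neg
            aug_pos := by rw [← eps_skelL, kp]; exact y.aug_pos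
            bdry_neg := fun q => skelL_inj n q (by
              rw [← bd_skelL, map_sub, kn, kn, kp]; exact y.bdry_neg q)
            bdry_pos := fun q => skelL_inj n q (by
              rw [← bd_skelL, map_sub, kp, kn, kp]; exact y.bdry_pos q) }, ?_⟩
  exact Cell.ext' fun q => ⟨(skelIncl_app n q _).trans (kn q), (skelIncl_app n q _).trans (kp q)⟩

/-- All cells of the cylinder on the skeleton have dimension at most `n + 1`. -/
theorem ivl_skel_dim (n : ℕ) (x : (nu (ivl (skel K n))).Cell) :
    (nu (ivl (skel K n))).src (n + 1) x = x := by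
  refine src_eq_self_of_isEmpty (fun q hq => ⟨fun b => ?_⟩) x
  cases b with
  | pt ε c => have := c.2; omega
  | mid c => have := c.2; omega

/-- A partial functor, restricted to the cylinder on the skeleton. -/
def skelRestrict {X : OmegaCat} {N n : ℕ} (h : n + 1 ≤ N) (F : FunUpTo (ivl K) X N) :
    nu (ivl (skel K n)) ⟶ X where
  toFun x := F.toFun ((nuMap (ivlMap (skelIncl K n))).toFun x)
  map_src i x := (F.comap (ivlMap (skelIncl K n))).map_src i x (fix x)
  map_tgt i x := (F.comap (ivlMap (skelIncl K n))).map_tgt i x (fix x)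
  map_comp i x y e := (F.comap (ivlMap (skelIncl K n))).map_comp i x y (fix x) (fix y) e
where
  fix (x : (nu (ivl (skel K n))).Cell) : (nu (ivl (skel K n))).src N x = x := by
    rcases h.lt_or_eq with h | h
    · conv_lhs => rw [← ivl_skel_dim n x]
      exact ((nu (ivl (skel K n))).src_src_hi h x).trans (ivl_skel_dim n x)
    · exact h ▸ ivl_skel_dim n x

theorem ivlMap_skel_mid (hK : Good K) (n : ℕ) {p : ℕ} (b : (skel K n).B p) :
    (atom (good_ivl (good_skel hK n)) (IB.mid b : (ivl (skel K n)).B (p + 1))).map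
      (ivlMap (skelIncl K n)) = atom (good_ivl hK) (IB.mid b.1 : (ivl K).B (p + 1)) :=
  map_atom_mid _ hK _ b b.1 (map_skel_atom hK n b)

end Vale.Agent.P213.Cyl
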