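import Vale.Agent.P213.Cyl.Gamma
import Vale.Agent.P213.Cyl.UncurryAux

/-!
# P213, Cyl: transposition

A functor `nu K ⟶ gamma Y`, `K` good, is the same as a functor `nu (I ⊗ K) ⟶ Y`: the values on the
atoms of `I ⊗ K` are the ends and the top values of the cylinders over the atoms of `K`.
-/

open CategoryTheory

noncomputable section

namespace Vale.Agent.P213

open Steiner Cyl

set_option backward.isDefEq.respectTransparency false

namespace Cyl

variable {K L M : Cx}

theorem map_map (f : CxHom K L) (g : CxHom L M) (x : Cell K) :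
    (x.map f).map g = x.map (f.andThen g) :=
  (congrArg (fun F : nu K ⟶ nu M => F.toFun x) (nuMap_andThen f g)).symm

/-- The functor of a cylinder. -/
abbrev val {Y : OmegaCat} (c : (gamma.obj Y).Cell) : nu (ivl gw) ⟶ Y := CylCell.val c

theorem val_injective {Y : OmegaCat} : Function.Injective (val (Y := Y)) :=
  fun _ _ h => CylCell.ext h

theorem val_curry {Y : OmegaCat} (Φ : nu (ivl K) ⟶ Y) (x : Cell K) :
    val ((curry Φ).toFun x) = nuMap (ivlMap (cellHom x)) ≫ Φ := rfl

theorem val_src {Y : OmegaCat} (n : ℕ) (c : (gamma.obj Y).Cell) :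
    val ((gamma.obj Y).src n c) = nuMap (ivlMap (col n false)) ≫ val c := rfl

theorem val_tgt {Y : OmegaCat} (n : ℕ) (c : (gamma.obj Y).Cell) :
    val ((gamma.obj Y).tgt n c) = nuMap (ivlMap (col n true)) ≫ val c := rfl

theorem ev_val {Y : OmegaCat} (ε : Bool) (p : ℕ) (c : (gamma.obj Y).Cell)
    (h : (gamma.obj Y).src p c = c) : ((ev ε).app Y).toFun c =
      (val c).toFun (atom (good_ivl good_gw) (IB.pt ε false : (ivl gw).B p)) :=
  (evFun_eq ε c (congrArg CylCell.val h)).trans
    (congrArg (val c).toFun (atom_pt good_gw ε (false : gw.B p))).symm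

/-- Source or target. -/
def oface (X : OmegaCat) (n : ℕ) (δ : Bool) (c : X.Cell) : X.Cell :=
  bif δ then X.tgt n c else X.src n c

theorem map_oface {X Y : OmegaCat} (F : X ⟶ Y) (n : ℕ) (δ : Bool) (c : X.Cell) :
    F.toFun (oface X n δ c) = oface Y n δ (F.toFun c) := by
  cases δ <;> simp [oface, F.map_src, F.map_tgt]

theorem src_oface (X : OmegaCat) (n : ℕ) (δ : Bool) (c : X.Cell) :
    X.src n (oface X n δ c) = oface X n δ c := by
  cases δ <;> simp [oface, X.src_src, X.src_tgt]

theorem src_eq_of_le {X : OmegaCat} {p n : ℕ} {c : X.Cell} (h : X.src p c = c) (hn : p ≤ n) :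
    X.src n c = c := by
  rcases hn.lt_or_eq with hn | rfl
  · rw [← h, X.src_src_hi hn]
  · exact h

theorem oface_eq_self {X : OmegaCat} {p n : ℕ} {c : X.Cell} (h : X.src p c = c) (hn : p ≤ n)
    (δ : Bool) : oface X n δ c = c := by
  rcases hn.lt_or_eq with hn | rfl
  · cases δ <;> simp only [oface, cond_true, cond_false] <;> rw [← h]
    exacts [X.src_src_hi hn c, X.tgt_src_hi hn c]
  · cases δ <;> simp only [oface, cond_true, cond_false]
    exacts [h, by rw [← h, X.tgt_src]]

variable {Y : OmegaCat}

theorem val_oface (n : ℕ) (δ : Bool) (c : (gamma.obj Y).Cell) :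
    val (oface (gamma.obj Y) n δ c) = nuMap (ivlMap (col n δ)) ≫ val c := by
  cases δ
  exacts [val_src n c, val_tgt n c]

/-- An interior atom of the cylinder on the globe. -/
abbrev mg (p : ℕ) (δ : Bool) : Cell (ivl gw) :=
  atom (good_ivl good_gw) (IB.mid δ : (ivl gw).B (p + 1))

/-- An end atom of the cylinder on the globe. -/
abbrev pg (ε : Bool) (p : ℕ) (δ : Bool) : Cell (ivl gw) :=
  atom (good_ivl good_gw) (IB.pt ε δ : (ivl gw).B p)

/-- The top value of a cylinder. -/
def top (c : (gamma.obj Y).Cell) (p : ℕ) : Y.Cell := (val c).toFun (mg p false)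

theorem mg_map_cellHom (x : Cell K) (p : ℕ) (δ : Bool) :
    (mg p δ).map (ivlMap (cellHom x)) =
      (mg p false).map (ivlMap (cellHom (Cyl.face p δ x))) := by
  rw [cellHom_face, ivlMap_andThen, ← map_map, map_atom_mid good_gw good_gw (col p δ) false δ]
  simpa using map_col_gcell p p false δ

theorem pg_map (f : CxHom gw K) (ε : Bool) (p : ℕ) (δ : Bool) :
    (pg ε p δ).map (ivlMap f) = ((gcell p δ).map f).map (ivlEnd K ε) := by
  rw [pg, atom_pt good_gw, map_map, end_ivlMap, ← map_map]

theorem val_mid (c : (gamma.obj Y).Cell) (p : ℕ) (δ : Bool) :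
    (val c).toFun (mg p δ) = top (oface (gamma.obj Y) p δ c) p := by
  rw [top, val_oface]
  show _ = (val c).toFun ((mg p false).map (ivlMap (col p δ)))
  rw [map_atom_mid good_gw good_gw (col p δ) false δ]
  simpa using map_col_gcell p p false δ

theorem val_pt (c : (gamma.obj Y).Cell) (ε : Bool) (p : ℕ) (δ : Bool) :
    (val c).toFun (pg ε p δ) = ((ev ε).app Y).toFun (oface (gamma.obj Y) p δ c) := by
  rw [ev_val ε p _ (src_oface _ p δ c), val_oface]
  show _ = (val c).toFun ((pg ε p false).map (ivlMap (col p δ)))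
  rw [pg_map, map_col_gcell, if_neg (lt_irrefl p), ← atom_pt good_gw]

theorem top_eq_of_le (c : (gamma.obj Y).Cell) {p r : ℕ} (h : (gamma.obj Y).src p c = c)
    (hr : p ≤ r) : top c r = top c p := by
  conv_lhs => rw [← h, top, val_src]
  show (val c).toFun ((mg r false).map (ivlMap (col p false))) = _
  rw [map_atom_mid good_gw good_gw (col p false) false (m := p) false]
  · rfl
  · exact (map_col_gcell r p false false).trans (if_neg (by omega))

theorem atom_face_self (hK : Good K) {p : ℕ} (b : K.B p) :
    Cyl.face p false (atom hK b) = atom hK b := atom_src_self hK b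

theorem top_curry (hK : Good K) (Φ : nu (ivl K) ⟶ Y) {p : ℕ} (b : K.B p) :
    top ((curry Φ).toFun (atom hK b)) p =
      Φ.toFun (atom (good_ivl hK) (IB.mid b : (ivl K).B (p + 1))) := by
  rw [top, val_curry]
  show Φ.toFun ((mg p false).map (ivlMap (cellHom (atom hK b)))) = _
  rw [map_atom_mid good_gw hK _ false b]
  exact (map_gcell _ p false).trans (atom_face_self hK b)

/-- A cylinder valued functor is determined by its ends and its tops on atoms. -/
theorem curry_eq_of_top (hK : Good K) (Φ : nu (ivl K) ⟶ Y) (g : nu K ⟶ gamma.obj Y)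
    (hend : ∀ ε p (b : K.B p), Φ.toFun (atom (good_ivl hK) (IB.pt ε b : (ivl K).B p)) =
      ((ev ε).app Y).toFun (g.toFun (atom hK b)))
    (htop : ∀ p (b : K.B p), Φ.toFun (atom (good_ivl hK) (IB.mid b : (ivl K).B (p + 1))) =
      top (g.toFun (atom hK b)) p) : curry Φ = g := by
  have he : ∀ ε (y : Cell K), ((ev ε).app Y).toFun ((curry Φ).toFun y) =
      ((ev ε).app Y).toFun (g.toFun y) := by
    intro ε y
    refine congrArg (fun F : nu K ⟶ Y => F.toFun y)
      (hom_ext hK (curry Φ ≫ (ev ε).app Y) (g ≫ (ev ε).app Y) fun p b => ?_)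
    rw [curry_ev]
    show Φ.toFun ((atom hK b).map (ivlEnd K ε)) = _
    rw [← atom_pt hK]
    exact hend ε p b
  refine hom_ext hK _ _ fun p b => ?_
  induction p using Nat.strong_induction_on with
  | _ p ih =>
    have low : ∀ m < p, ∀ y : Cell K, y.src m = y → (curry Φ).toFun y = g.toFun y :=
      fun m hm => FunUpTo.ext_atoms hK (.ofHom (curry Φ) m) (.ofHom g m)
        fun q hq c => ih q (by omega) c
    refine val_injective (hom_ext (good_ivl good_gw) _ _ fun r x => ?_)
    cases x with
    | pt ε δ =>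
      show (val _).toFun (pg ε r δ) = (val _).toFun (pg ε r δ)
      rw [val_pt, val_pt, map_oface, map_oface, he]
    | @mid r δ =>
      show (val _).toFun (mg r δ) = (val _).toFun (mg r δ)
      rw [val_mid, val_mid]
      rcases lt_or_ge r p with hr | hr
      · rw [← map_oface (curry Φ), ← map_oface g, low r hr _ (src_oface (nu K) r δ _)]
      · have hf : ∀ F : nu K ⟶ gamma.obj Y,
            (gamma.obj Y).src p (F.toFun (atom hK b)) = F.toFun (atom hK b) := fun F => by
          rw [← F.map_src, atom_src_self]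
        rw [oface_eq_self (hf _) hr, oface_eq_self (hf _) hr, top_eq_of_le _ (hf _) hr,
          top_eq_of_le _ (hf _) hr, top_curry hK Φ b, htop p b]

/-- The values of the transpose on atoms. -/
def unVal (hK : Good K) (g : nu K ⟶ gamma.obj Y) : ∀ q, (ivl K).B q → Y.Cell
  | _, .pt ε b => ((ev ε).app Y).toFun (g.toFun (atom hK b))
  | _, .mid (q := q) b => top (g.toFun (atom hK b)) q

theorem unVal_dim (hK : Good K) (g : nu K ⟶ gamma.obj Y) (q : ℕ) (x : (ivl K).B q) :
    Y.src q (unVal hK g q x) = unVal hK g q x := by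
  cases x with
  | pt ε b =>
    show Y.src q (((ev ε).app Y).toFun _) = ((ev ε).app Y).toFun _
    refine (((ev ε).app Y).map_src q _).symm.trans ?_
    rw [← g.map_src, atom_src_self]
  | @mid q b =>
    show Y.src (q + 1) ((val _).toFun (mg q false)) = (val _).toFun (mg q false)
    rw [← (val _).map_src, atom_src_self]

theorem unVal_bd (hK : Good K) (g : nu K ⟶ gamma.obj Y) (q : ℕ) (x : (ivl K).B (q + 1))
    (F : FunUpTo (ivl K) Y q)
    (hF : ∀ p ≤ q, ∀ c : (ivl K).B p, F.toFun (atom (good_ivl hK) c) = unVal hK g p c) :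
    Y.src q (unVal hK g (q + 1) x) = F.toFun ((nu (ivl K)).src q (atom (good_ivl hK) x)) ∧
      Y.tgt q (unVal hK g (q + 1) x) = F.toFun ((nu (ivl K)).tgt q (atom (good_ivl hK) x)) := by
  have hend : ∀ ε (y : Cell K), (nu K).src q y = y →
      F.toFun (y.map (ivlEnd K ε)) = ((ev ε).app Y).toFun (g.toFun y) := fun ε =>
    FunUpTo.ext_atoms hK (F.comap (ivlEnd K ε)) (.ofHom (g ≫ (ev ε).app Y) q) fun p hp b => by
      show F.toFun ((atom hK b).map (ivlEnd K ε)) = _
      rw [← atom_pt hK]
      exact hF p hp _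
  cases x with
  | pt ε b =>
    rw [atom_pt hK]
    constructor
    · refine Eq.trans ?_ (congrArg F.toFun ((nuMap (ivlEnd K ε)).map_src q (atom hK b)))
      refine Eq.trans ?_ (hend ε _ ((nu K).src_src q _)).symm
      rw [g.map_src]
      exact (((ev ε).app Y).map_src q _).symm
    · refine Eq.trans ?_ (congrArg F.toFun ((nuMap (ivlEnd K ε)).map_tgt q (atom hK b)))
      refine Eq.trans ?_ (hend ε _ ((nu K).src_tgt q _)).symm
      rw [g.map_tgt]
      exact (((ev ε).app Y).map_tgt q _).symm
  | mid b =>
    have hM : (mg q false).map (ivlMap (cellHom (atom hK b))) =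
        atom (good_ivl hK) (IB.mid b : (ivl K).B (q + 1)) :=
      map_atom_mid good_gw hK _ false b ((map_gcell _ q false).trans (atom_face_self hK b))
    have key : ∀ z : Cell (ivl gw), (nu (ivl gw)).src q z = z →
        F.toFun (z.map (ivlMap (cellHom (atom hK b)))) =
          (val (g.toFun (atom hK b))).toFun z :=
      FunUpTo.ext_atoms (good_ivl good_gw) (F.comap _) (.ofHom _ q) fun p hp c => by
        cases c with
        | pt ε δ =>
          show F.toFun ((pg ε p δ).map _) = (val _).toFun (pg ε p δ)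
          rw [val_pt, pg_map, map_gcell, ← map_oface g]
          exact hend ε _ (src_eq_of_le (src_oface (nu K) p δ _) hp)
        | @mid r δ =>
          show F.toFun ((mg r δ).map _) = (val _).toFun (mg r δ)
          obtain ⟨z, hz⟩ := exists_skel (K := K) (src_oface (nu K) r δ (atom hK b))
          have hc : curry (skelRestrict hp F) = nuMap (skelIncl K r) ≫ g := by
            refine curry_eq_of_top (good_skel hK r) _ _ (fun ε p c => ?_) (fun p c => ?_)
            · show F.toFun ((atom _ _).map (ivlMap _)) =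
                ((ev ε).app Y).toFun (g.toFun ((atom _ c).map _))
              rw [atom_pt (good_skel hK r), map_map, end_ivlMap, ← map_map, map_skel_atom hK,
                ← atom_pt hK]
              exact hF p (by have := c.2; omega) _
            · show F.toFun ((atom _ _).map (ivlMap _)) = top (g.toFun ((atom _ c).map _)) p
              rw [ivlMap_skel_mid hK, map_skel_atom hK]
              exact hF (p + 1) (by have := c.2; omega) _
          rw [val_mid, ← map_oface g, mg_map_cellHom, ← hz]
          show _ = top ((nuMap (skelIncl K r) ≫ g).toFun z) r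
          rw [← hc, top, val_curry]
          show _ = F.toFun (((mg r false).map (ivlMap (cellHom z))).map (ivlMap (skelIncl K r)))
          rw [map_map, ← ivlMap_andThen, ← cellHom_map, hz]
          cases δ <;> rfl
    rw [← hM]
    constructor
    · refine Eq.trans ?_ (congrArg F.toFun ((nuMap _).map_src q (mg q false)))
      refine Eq.trans ?_ (key _ ((nu (ivl gw)).src_src q _)).symm
      exact ((val _).map_src q _).symm
    · refine Eq.trans ?_ (congrArg F.toFun ((nuMap _).map_tgt q (mg q false)))
      refine Eq.trans ?_ (key _ ((nu (ivl gw)).src_tgt q _)).symm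
      exact ((val _).map_tgt q _).symm

theorem exists_uncurry (hK : Good K) (g : nu K ⟶ gamma.obj Y) :
    ∃! F : nu (ivl K) ⟶ Y, ∀ q (x : (ivl K).B q),
      F.toFun (atom (good_ivl hK) x) = unVal hK g q x :=
  exists_lift (good_ivl hK) _ (unVal_dim hK g) (unVal_bd hK g)

end Cyl

/-- The transpose of a functor into the cylinders. -/
def uncurry {K : Cx} (hK : Good K) {Y : OmegaCat} (g : nu K ⟶ gamma.obj Y) :
    nu (ivl K) ⟶ Y := (exists_uncurry hK g).exists.choose

theorem curry_uncurry {K : Cx} (hK : Good K) {Y : OmegaCat} (g : nu K ⟶ gamma.obj Y) :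
    curry (uncurry hK g) = g :=
  curry_eq_of_top hK _ g (fun ε _ b => (exists_uncurry hK g).exists.choose_spec _ (IB.pt ε b))
    fun _ b => (exists_uncurry hK g).exists.choose_spec _ (IB.mid b)

theorem uncurry_curry {K : Cx} (hK : Good K) {Y : OmegaCat} (Φ : nu (ivl K) ⟶ Y) :
    uncurry hK (curry Φ) = Φ := by
  refine hom_ext (good_ivl hK) _ _ fun q x => ?_
  refine ((exists_uncurry hK (curry Φ)).exists.choose_spec q x).trans ?_
  cases x with
  | pt ε b =>
    show (curry Φ ≫ (ev ε).app Y).toFun (atom hK b) = _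
    rw [curry_ev, atom_pt hK]
    rfl
  | mid b => exact top_curry hK Φ b

theorem nuMap_uncurry {K L : Cx} (hK : Good K) (hL : Good L) {Y : OmegaCat} (f : CxHom K L)
    (g : nu L ⟶ gamma.obj Y) :
    nuMap (ivlMap f) ≫ uncurry hL g = uncurry hK (nuMap f ≫ g) := by
  conv_rhs => rw [← curry_uncurry hL g, nuMap_curry, uncurry_curry]

theorem ivlEnd_uncurry {K : Cx} (hK : Good K) {Y : OmegaCat} (g : nu K ⟶ gamma.obj Y)
    (δ : Bool) : nuMap (ivlEnd K δ) ≫ uncurry hK g = g ≫ (ev δ).app Y := by
  conv_rhs => rw [← curry_uncurry hK g, curry_ev]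

end Vale.Agent.P213
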