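import Vale.Agent.P213.Cyl.Prism
import Vale.Agent.P213.Cyl.Uncurry

/-!
# P213, Cyl: the two ends of the cylinders are homotopic on nerves
-/

open CategoryTheory MonoidalCategory Simplicial

noncomputable section

namespace Vale.Agent.P213

open Steiner

/-- The nerves of the two ends are simplicially homotopic. -/
theorem nerve_ev_htpc (Y : OmegaCat) : Htpc (nerve.map (ev₀.app Y)) (nerve.map (ev₁.app Y)) :=
  htpc_of_uncurry (fun d => (ev d).app Y) (fun _ hK g => uncurry hK g)
    (fun hK hL f H => nuMap_uncurry hK hL f H) (fun hK ε H => ivlEnd_uncurry hK H ε)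

/-- The two ends act in the same way on homotopy classes. -/
theorem nerve_ev_eq (Y : OmegaCat) (K : SSet.{0}) (_hK : IsKan K) :
    precompClass (nerve.map (ev₀.app Y)) K = precompClass (nerve.map (ev₁.app Y)) K :=
  precompClass_eq_of_single (nerve_ev_htpc Y) K

end Vale.Agent.P213
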