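import Vale.Agent.P213.Steiner.Free
import Vale.Agent.P213.Steiner.Tensor

/-!
# P213, Cyl: the infinite globe

`gw` has two basis elements in each degree. A cell of `nu K` is the same as a chain map `gw → K`
of bounded degree; `col n b` is the map of the atom of `(n, b)`, so precomposition with
`col n false` and `col n true` gives the source and target of dimension `n`.
-/

open CategoryTheory

noncomputable section

namespace Vale.Agent.P213.Cyl

open Steiner

/-- The complex of the infinite globe. -/
abbrev gw : Cx where
  B _ := Bool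
  d _ _ := Finsupp.single true 1 - Finsupp.single false 1
  e _ := 1

theorem bd_gw (q : ℕ) (b : Bool) (m : ℤ) : bd gw q (Finsupp.single b m) =
    m • (Finsupp.single true 1 - Finsupp.single false 1) :=
  bd_single gw q b m

theorem atom_gw {n : ℕ} (b : gw.B n) : ∀ q,
    atomNeg gw b q = (if q < n then Finsupp.single false 1
      else if q = n then Finsupp.single b 1 else 0) ∧
    atomPos gw b q = (if q < n then Finsupp.single true 1
      else if q = n then Finsupp.single b 1 else 0) := by
  suffices h : ∀ j q, q + j + 1 = n →
      atomNeg gw b q = Finsupp.single false 1 ∧ atomPos gw b q = Finsupp.single true 1 by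
    intro q
    rcases lt_trichotomy q n with hq | rfl | hq
    · simp only [hq, if_true]
      exact h (n - q - 1) q (by omega)
    · simp [atomNeg, atomPos, down_top]
    · simp [atomNeg, atomPos, down_above hq, show ¬ q < n by omega, show ¬ q = n by omega]
  have hnn : ∀ (u x : Bool), 0 ≤ (Finsupp.single u (1 : ℤ)) x := fun u x => by
    cases u <;> cases x <;> simp
  obtain ⟨P, N⟩ := posP_negP_sub (a := Finsupp.single true (1 : ℤ))
    (b := Finsupp.single false 1) (hnn true) (hnn false) (fun x => by cases x <;> simp)
  intro j
  induction j with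
  | zero =>
    intro q hq
    obtain rfl : q + 1 = n := by omega
    obtain ⟨s1, s2⟩ := down_step (K := gw) (Nat.lt_succ_self q) (Finsupp.single b (1 : ℤ))
    simp only [atomNeg, atomPos]
    rw [s1, s2, (down_top (K := gw) _ _).1, (down_top (K := gw) _ _).2, bd_gw, one_smul]
    exact ⟨N, P⟩
  | succ j ih =>
    intro q hq
    obtain ⟨s1, s2⟩ := down_step (K := gw) (show q < n by omega) (Finsupp.single b (1 : ℤ))
    obtain ⟨a1, a2⟩ := ih (q + 1) (by omega)
    simp only [atomNeg, atomPos] at a1 a2 ⊢
    rw [s1, s2, a1, a2, bd_gw, bd_gw, one_smul]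
    exact ⟨N, P⟩

theorem good_gw : Good gw where
  bd_bd q b := by
    show bd gw q (Finsupp.single true 1 - Finsupp.single false 1) = 0
    rw [map_sub, bd_gw, bd_gw, sub_self]
  eps_bd b := by
    show eps gw (Finsupp.single true 1 - Finsupp.single false 1) = 0
    rw [map_sub, eps_single, eps_single, sub_self]
  unit_neg n b := by
    rw [(atom_gw b 0).1]
    split_ifs <;> first | (rw [eps_single]; rfl) | omega
  unit_pos n b := by
    rw [(atom_gw b 0).2]
    split_ifs <;> first | (rw [eps_single]; rfl) | omega
  order := by
    let k : (Σ q, gw.B q) → Bool ×ₗ ℤ := fun x =>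
      toLex (x.2, if x.2 then -(x.1 : ℤ) else (x.1 : ℤ))
    have hk : k.Injective := by
      rintro ⟨q, b⟩ ⟨q', b'⟩ h
      obtain ⟨rfl, h2⟩ := Prod.ext_iff.1 (toLex.injective h)
      cases b <;> simp at h2 <;> subst h2 <;> rfl
    refine ⟨fun x y => k x < k y, isStrictTotalOrder_key inferInstance k hk, fun q b a => ?_⟩
    show ((Finsupp.single true 1 - Finsupp.single false 1 : Bool →₀ ℤ) a < 0 → _) ∧
      (0 < (Finsupp.single true 1 - Finsupp.single false 1 : Bool →₀ ℤ) a → _)
    cases a <;> cases b <;> simp [k, Prod.Lex.toLex_lt_toLex]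

/-- The chain map out of the globe classifying a cell. -/
def cellHom {K : Cx} (x : Cell K) : CxHom gw K where
  f q b := bif b then x.pos q else x.neg q
  nonneg q b c := by cases b <;> simp [x.neg_nonneg, x.pos_nonneg]
  comm q b := by
    rw [← bd_apply]
    cases b <;> simp [x.bdry_neg, x.bdry_pos, Finsupp.sum_sub_index, sub_smul]
  aug b := by
    rw [← eps_apply]
    cases b <;> simp [x.aug_neg, x.aug_pos]

theorem cellHom_app {K : Cx} (x : Cell K) (q : ℕ) (b : Bool) :
    (cellHom x).app q (Finsupp.single b 1) = bif b then x.pos q else x.neg q :=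
  by rw [CxHom.app_single, one_smul]; rfl

theorem cellHom_map {K L : Cx} (f : CxHom K L) (x : Cell K) :
    cellHom (x.map f) = (cellHom x).andThen f :=
  CxHom.ext fun q b => by cases b <;> rfl

/-- The cell of the globe at `(n, b)`. -/
abbrev gcell (n : ℕ) (b : Bool) : Cell gw := atom good_gw (n := n) b

/-- The map of the cell at `(n, b)`. -/
def col (n : ℕ) (b : Bool) : CxHom gw gw := cellHom (gcell n b)

theorem col_f (n : ℕ) (b : Bool) (q : ℕ) (ε : Bool) :
    (col n b).f q ε = if q < n then Finsupp.single ε 1
      else if q = n then Finsupp.single b 1 else 0 := by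
  cases ε
  · exact (atom_gw (n := n) b q).1
  · exact (atom_gw (n := n) b q).2

theorem col_andThen (i j : ℕ) (b c : Bool) : (col i b).andThen (col j c) =
    if i < j then col i b else if i = j then col i c else col j c := by
  refine CxHom.ext fun q ε => ?_
  show (col j c).app q ((col i b).f q ε) = _
  rw [col_f]
  rcases lt_trichotomy q i with h | h | h
  · rw [if_pos h, CxHom.app_single, one_smul, col_f]
    split_ifs <;> simp only [col_f] <;> split_ifs <;> first | rfl | omega
  · rw [if_neg (by omega), if_pos h, CxHom.app_single, one_smul, col_f]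
    split_ifs <;> simp only [col_f] <;> split_ifs <;> first | rfl | omega
  · rw [if_neg (by omega), if_neg (by omega), map_zero]
    split_ifs <;> simp only [col_f] <;> split_ifs <;> first | rfl | omega

/-- Source or target. -/
def face {K : Cx} (n : ℕ) (b : Bool) (x : Cell K) : Cell K := bif b then x.tgt n else x.src n

theorem cellHom_face {K : Cx} (n : ℕ) (b : Bool) (x : Cell K) :
    cellHom (face n b x) = (col n b).andThen (cellHom x) := by
  refine CxHom.ext fun q ε => ?_
  show _ = (cellHom x).app q ((col n b).f q ε)
  rw [col_f]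
  rcases lt_trichotomy q n with h | h | h
  · rw [if_pos h, cellHom_app]
    cases b <;> cases ε <;> simp [cellHom, face, Cell.src, Cell.tgt, h, h.le]
  · subst h
    rw [if_neg (lt_irrefl q), if_pos rfl, cellHom_app]
    cases b <;> cases ε <;> simp [cellHom, face, Cell.src, Cell.tgt]
  · rw [if_neg (by omega), if_neg (by omega), map_zero]
    cases b <;> cases ε <;> simp [cellHom, face, Cell.src, Cell.tgt, show ¬ q < n by omega,
      show ¬ q = n by omega, show ¬ q ≤ n by omega]

theorem map_gcell {K : Cx} (x : Cell K) (n : ℕ) (b : Bool) :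
    (gcell n b).map (cellHom x) = face n b x := by
  refine Cell.ext' fun q => ?_
  have h := (atom_gw (n := n) b q)
  show (cellHom x).app q (atomNeg gw b q) = _ ∧ (cellHom x).app q (atomPos gw b q) = _
  rw [h.1, h.2]
  rcases lt_trichotomy q n with hq | hq | hq
  · simp only [hq, if_true]
    rw [cellHom_app, cellHom_app]
    cases b <;> simp [face, Cell.src, Cell.tgt, hq, hq.le]
  · subst hq
    simp only [lt_irrefl, if_false, if_true]
    rw [cellHom_app]
    cases b <;> simp [face, Cell.src, Cell.tgt]
  · simp only [show ¬ q < n by omega, show ¬ q = n by omega, if_false, map_zero]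
    cases b <;> simp [face, Cell.src, Cell.tgt, show ¬ q < n by omega,
      show ¬ q = n by omega, show ¬ q ≤ n by omega]

theorem face_gcell (n i : ℕ) (b c : Bool) : face n b (gcell i c) =
    if n < i then gcell n b else gcell i c := by
  refine Cell.ext' fun q => ?_
  obtain ⟨a1, a2⟩ := atom_gw (n := n) b q
  obtain ⟨c1, c2⟩ := atom_gw (n := i) c q
  split_ifs with h <;> cases b <;>
    simp only [face, cond_true, cond_false, Cell.src, Cell.tgt, atom_neg, atom_pos, a1, a2, c1,
      c2] <;>
    constructor <;> split_ifs <;> first | rfl | omega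

theorem map_col_gcell (n i : ℕ) (b c : Bool) : (gcell n b).map (col i c) =
    if n < i then gcell n b else gcell i c :=
  (map_gcell _ n b).trans (face_gcell n i b c)

theorem face_src_eq {K : Cx} {N : ℕ} {x : Cell K} (h : x.src N = x) {n : ℕ} (hn : N ≤ n) :
    x.src n = x := by
  rcases hn.lt_or_eq with hn | rfl
  · rw [← h, (Cell.src_hi hn x).1]
  · exact h

end Vale.Agent.P213.Cyl
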