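import Vale.Agent.P213.Cyl.Globe

/-!
# P213, Cyl: grids of globes

`grid i j m n` (`i < j`) is an `m × n` array of globes composable along `i` in the first and along
`j` in the second direction: composable pairs and triples and interchange squares.
-/

open CategoryTheory

noncomputable section

namespace Vale.Agent.P213.Cyl

open Steiner

/-- The normal form in degree `q` of the element `ε` of the globe at `(a, b)`. -/
def nf (i j q a b : ℕ) (ε : Bool) : ℕ × ℕ × Bool :=
  if q < i then (0, 0, ε)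
  else if q = i then (a + ε.toNat, 0, false)
  else if q < j then (a, 0, ε)
  else if q = j then (a, b + ε.toNat, false)
  else (a, b, ε)

theorem nf_down {i j q a b a' b' : ℕ} {ε ε' : Bool}
    (h : nf i j (q + 1) a b ε = nf i j (q + 1) a' b' ε') (δ : Bool) :
    nf i j q a b δ = nf i j q a' b' δ := by
  unfold nf at h ⊢
  split_ifs at h ⊢ <;> simp [Prod.ext_iff] at h ⊢ <;> omega

theorem nf_inj {i j q a b : ℕ} {ε ε' : Bool} (h : nf i j q a b ε = nf i j q a b ε') : ε = ε' := by
  unfold nf at h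
  split_ifs at h <;> cases ε <;> cases ε' <;> simp at h ⊢

variable (i j m n : ℕ)

/-- The basis of the grid. -/
abbrev GB (q : ℕ) : Type := {p : ℕ × ℕ × Bool // ∃ a < m, ∃ b < n, ∃ ε, nf i j q a b ε = p}

variable {i j m n}

/-- The element `ε` of the globe at `(a, b)`. -/
def gel {q : ℕ} (a : Fin m) (b : Fin n) (ε : Bool) : GB i j m n q :=
  ⟨nf i j q a b ε, a, a.2, b, b.2, ε, rfl⟩

theorem exists_gel {q : ℕ} (p : GB i j m n q) :
    ∃ t : Fin m × Fin n × Bool, gel t.1 t.2.1 t.2.2 = p := by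
  obtain ⟨a, ha, b, hb, ε, h⟩ := p.2
  exact ⟨(⟨a, ha⟩, ⟨b, hb⟩, ε), Subtype.ext h⟩

/-- A globe containing the element. -/
def rep {q : ℕ} (p : GB i j m n q) : Fin m × Fin n × Bool := (exists_gel p).choose

theorem gel_rep {q : ℕ} (p : GB i j m n q) : gel (rep p).1 (rep p).2.1 (rep p).2.2 = p :=
  (exists_gel p).choose_spec

variable (i j m n)

/-- The grid. -/
abbrev grid : Cx where
  B := GB i j m n
  d _ p := Finsupp.single (gel (rep p).1 (rep p).2.1 true) 1 -
    Finsupp.single (gel (rep p).1 (rep p).2.1 false) 1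
  e _ := 1

variable {i j m n}

theorem gd_gel (q : ℕ) (a : Fin m) (b : Fin n) (ε : Bool) :
    (grid i j m n).d q (gel a b ε) =
      Finsupp.single (gel a b true) 1 - Finsupp.single (gel a b false) 1 := by
  have h := congrArg Subtype.val (gel_rep (gel (i := i) (j := j) (q := q + 1) a b ε))
  show Finsupp.single (gel _ _ true) 1 - Finsupp.single (gel _ _ false) 1 = _
  congr 2 <;> exact Subtype.ext (nf_down h _)

/-- The globe at `(a, b)`. -/
def incl (a : Fin m) (b : Fin n) : CxHom gw (grid i j m n) where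
  f _ ε := Finsupp.single (gel a b ε) 1
  nonneg _ _ c := by classical rw [Finsupp.single_apply]; split_ifs <;> simp
  comm q ε := by
    rw [Finsupp.sum_single_index (by simp), one_smul]
    refine (gd_gel q a b ε).trans ?_
    rw [Finsupp.sum_sub_index (fun _ _ _ => sub_smul _ _ _), Finsupp.sum_single_index (by simp),
      Finsupp.sum_single_index (by simp), one_smul, one_smul]
  aug ε := by rw [Finsupp.sum_single_index (by simp), one_mul]

theorem gel_inj {q : ℕ} (a : Fin m) (b : Fin n) :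
    Function.Injective (gel (i := i) (j := j) (q := q) a b) :=
  fun _ _ h => nf_inj (congrArg Subtype.val h)

theorem incl_app (a : Fin m) (b : Fin n) (q : ℕ) (ε : Bool) :
    (incl (i := i) (j := j) a b).app q (Finsupp.single ε 1) = Finsupp.single (gel a b ε) 1 := by
  rw [CxHom.app_single, one_smul]; rfl

/-- The position of an element in the order of the grid. -/
def gkey (i j q : ℕ) (p : ℕ × ℕ × Bool) : List ℤ :=
  if q < i then [if p.2.2 then 2 else 0, if p.2.2 then -(q : ℤ) else q]
  else if q = i then [1, 2 * p.1]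
  else if q < j then [1, 2 * p.1 + 1, if p.2.2 then 2 else 0, if p.2.2 then -(q : ℤ) else q]
  else if q = j then [1, 2 * p.1 + 1, 1, 2 * p.2.1]
  else [1, 2 * p.1 + 1, 1, 2 * p.2.1 + 1, if p.2.2 then 2 else 0,
    if p.2.2 then -(q : ℤ) else q]

theorem gkey_nf (q a b : ℕ) (ε : Bool) : gkey i j q (nf i j q a b ε) =
    if q < i then [if ε then 2 else 0, if ε then -(q : ℤ) else q]
    else if q = i then [1, 2 * ((a + ε.toNat : ℕ) : ℤ)]
    else if q < j then [1, 2 * (a : ℤ) + 1, if ε then 2 else 0, if ε then -(q : ℤ) else q]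
    else if q = j then [1, 2 * (a : ℤ) + 1, 1, 2 * ((b + ε.toNat : ℕ) : ℤ)]
    else [1, 2 * (a : ℤ) + 1, 1, 2 * (b : ℤ) + 1, if ε then 2 else 0,
      if ε then -(q : ℤ) else q] := by
  unfold gkey nf
  split_ifs <;> rfl

theorem gkey_lt (hij : i < j) (q a b : ℕ) (ε : Bool) :
    gkey i j q (nf i j q a b false) < gkey i j (q + 1) (nf i j (q + 1) a b ε) ∧
      gkey i j (q + 1) (nf i j (q + 1) a b ε) < gkey i j q (nf i j q a b true) := by
  rw [gkey_nf, gkey_nf, gkey_nf]
  rcases (show q + 1 < i ∨ q + 1 = i ∨ (q = i ∧ q + 1 < j) ∨ (q = i ∧ q + 1 = j) ∨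
      (i < q ∧ q + 1 < j) ∨ (i < q ∧ q + 1 = j) ∨ q = j ∨ j < q by omega) with
    h | h | ⟨h, h'⟩ | ⟨h, h'⟩ | ⟨h, h'⟩ | ⟨h, h'⟩ | h | h <;>
  simp (disch := omega) only [if_pos, if_neg] <;>
  cases ε <;> simp [List.cons_lt_cons_iff] <;> omega

theorem gkey_inj {q q' a b a' b' : ℕ} {ε ε' : Bool}
    (h : gkey i j q (nf i j q a b ε) = gkey i j q' (nf i j q' a' b' ε')) :
    q = q' ∧ nf i j q a b ε = nf i j q' a' b' ε' := by
  unfold gkey nf at *
  split_ifs at * <;>
    first
    | omega
    | (cases ε <;> cases ε' <;> simp_all <;> omega)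

theorem good_grid (hij : i < j) : Good (grid i j m n) where
  bd_bd q p := by
    obtain ⟨⟨a, b, ε⟩, rfl⟩ := exists_gel p
    rw [gd_gel, map_sub, bd_single, bd_single, gd_gel, gd_gel, one_smul, sub_self]
  eps_bd p := by
    obtain ⟨⟨a, b, ε⟩, rfl⟩ := exists_gel p
    rw [gd_gel, map_sub, eps_single, eps_single, sub_self]
  unit_neg k p := by
    obtain ⟨⟨a, b, ε⟩, rfl⟩ := exists_gel p
    rw [(atom_map (K := gw) (L := grid i j m n) (fun _ => gel a b) (fun _ => gel_inj a b)
      ?_ ε 0).1]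
    · rw [(atom_gw ε 0).1]
      split_ifs <;> first
        | (rw [Finsupp.mapDomain_single, eps_single]; rfl)
        | omega
    · intro q v
      have key : ∀ q, (incl (i := i) (j := j) a b).app q = Finsupp.lmapDomain ℤ ℤ (gel a b) :=
        fun q => Finsupp.lhom_ext fun c r => by
          rw [CxHom.app_single, Finsupp.lmapDomain_apply, Finsupp.mapDomain_single]
          exact (Finsupp.smul_single _ _ _).trans (congrArg _ (mul_one r))
      simpa [key] using (incl (i := i) (j := j) a b).bd_app q v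
  unit_pos k p := by
    obtain ⟨⟨a, b, ε⟩, rfl⟩ := exists_gel p
    rw [(atom_map (K := gw) (L := grid i j m n) (fun _ => gel a b) (fun _ => gel_inj a b)
      ?_ ε 0).2]
    · rw [(atom_gw ε 0).2]
      split_ifs <;> first
        | (rw [Finsupp.mapDomain_single, eps_single]; rfl)
        | omega
    · intro q v
      have key : ∀ q, (incl (i := i) (j := j) a b).app q = Finsupp.lmapDomain ℤ ℤ (gel a b) :=
        fun q => Finsupp.lhom_ext fun c r => by
          rw [CxHom.app_single, Finsupp.lmapDomain_apply, Finsupp.mapDomain_single]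
          exact (Finsupp.smul_single _ _ _).trans (congrArg _ (mul_one r))
      simpa [key] using (incl (i := i) (j := j) a b).bd_app q v
  order := by
    let k : (Σ q, (grid i j m n).B q) → List ℤ := fun x => gkey i j x.1 x.2.1
    have hk : k.Injective := by
      rintro ⟨q, p⟩ ⟨q', p'⟩ h
      obtain ⟨⟨a, b, ε⟩, rfl⟩ := exists_gel p
      obtain ⟨⟨a', b', ε'⟩, rfl⟩ := exists_gel p'
      obtain ⟨rfl, h⟩ := gkey_inj h
      exact congrArg _ (Subtype.ext h)
    refine ⟨fun x y => k x < k y, isStrictTotalOrder_key inferInstance k hk, fun q p c => ?_⟩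
    obtain ⟨⟨a, b, ε⟩, rfl⟩ := exists_gel p
    rw [gd_gel]
    obtain ⟨h1, h2⟩ := gkey_lt hij q a b ε
    classical
    rw [Finsupp.sub_apply, Finsupp.single_apply, Finsupp.single_apply]
    constructor <;> intro hc <;> split_ifs at hc with e1 e2 e2 <;>
      first
      | omega
      | (subst e1; exact h2)
      | (subst e2; exact h1)

/-- The cover of the grid by globes. -/
theorem incl_cover (q : ℕ) (p : (grid i j m n).B q) :
    ∃ (t : Fin m × Fin n) (ε : Bool), gel t.1 t.2 ε = p :=
  ⟨((rep p).1, (rep p).2.1), (rep p).2.2, gel_rep p⟩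

theorem fin_chain {A : Type*} {k : ℕ} (f : Fin k → A)
    (h : ∀ a a' : Fin k, (a : ℕ) + 1 = a' → f a = f a') (a a' : Fin k) : f a = f a' := by
  suffices H : ∀ c : ℕ, ∀ hc : c < k, f ⟨c, hc⟩ = f ⟨0, by omega⟩ from
    (H a.1 a.2).trans (H a'.1 a'.2).symm
  intro c
  induction c with
  | zero => intro _; rfl
  | succ c ih => intro hc; exact (h ⟨c, by omega⟩ ⟨c + 1, hc⟩ rfl).symm.trans (ih (by omega))

/-- Values on the globes which agree along the seams depend only on the element. -/
theorem nf_congr {A : ℕ → Type*} (hij : i < j)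
    (v : ∀ q, Fin m → Fin n → Bool → A q)
    (hi : ∀ q < i, ∀ (a a' : Fin m) b ε, (a : ℕ) + 1 = a' → v q a b ε = v q a' b ε)
    (hi' : ∀ (a a' : Fin m) b, (a : ℕ) + 1 = a' → v i a b true = v i a' b false)
    (hj : ∀ q < j, ∀ a (b b' : Fin n) ε, (b : ℕ) + 1 = b' → v q a b ε = v q a b' ε)
    (hj' : ∀ a (b b' : Fin n), (b : ℕ) + 1 = b' → v j a b true = v j a b' false)
    {q : ℕ} {a a' : Fin m} {b b' : Fin n} {ε ε' : Bool}
    (h : nf i j q a b ε = nf i j q a' b' ε') : v q a b ε = v q a' b' ε' := by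
  have hb : q < j → ∀ (a : Fin m) b b' ε, v q a b ε = v q a b' ε :=
    fun hq a b b' ε => fin_chain (fun b => v q a b ε) (fun b b' => hj q hq a b b' ε) b b'
  unfold nf at h
  split_ifs at h with h1 h2 h3 h4 <;> simp [Prod.ext_iff] at h
  · subst h
    exact (fin_chain (fun a => v q a b ε) (fun a a' => hi q h1 a a' b ε) a a').trans
      (hb (by omega) a' b b' ε)
  · subst h2
    rw [hb hij a b b' ε]
    cases ε <;> cases ε' <;> simp at h
    · rw [Fin.ext h]
    · exact (hi' a' a b' h.symm).symm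
    · exact hi' a a' b' h
    · rw [Fin.ext h]
  · obtain ⟨h, rfl⟩ := h
    rw [Fin.ext h, hb h3 a' b b' ε]
  · obtain ⟨h, h'⟩ := h
    subst h4
    rw [Fin.ext h]
    cases ε <;> cases ε' <;> simp at h'
    · rw [Fin.ext h']
    · exact (hj' a' b' b h'.symm).symm
    · exact hj' a' b b' h'
    · rw [Fin.ext h']
  · obtain ⟨h, h', rfl⟩ := h
    rw [Fin.ext h, Fin.ext h']

end Vale.Agent.P213.Cyl
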