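import Vale.Agent.P213.Cyl.Grid
import Vale.Agent.P213.Steiner.TensorMaps

/-!
# P213, Cyl: maps out of grids, the composite of a pair, atoms of cylinders on globes
-/

open CategoryTheory

noncomputable section

namespace Vale.Agent.P213.Cyl

open Steiner

theorem Cell.map_map {K L M : Cx} (f : CxHom K L) (g : CxHom L M) (x : Cell K) :
    (x.map f).map g = x.map (f.andThen g) :=
  (congrArg (fun F : nu K ⟶ nu M => F.toFun x) (nuMap_andThen f g)).symm

variable {i j m n : ℕ}

/-- The families of cells composable along `i` and `j`. -/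
def AdjCells {K : Cx} (i j : ℕ) (t : Fin m → Fin n → Cell K) : Prop :=
  (∀ (a a' : Fin m) b, (a : ℕ) + 1 = a' → (t a b).tgt i = (t a' b).src i) ∧
    ∀ a (b b' : Fin n), (b : ℕ) + 1 = b' → (t a b).tgt j = (t a b').src j

section

variable {K : Cx} (hij : i < j) (t : Fin m → Fin n → Cell K) (ht : AdjCells i j t)

include hij ht in
theorem gridVal_congr {q : ℕ} {a a' : Fin m} {b b' : Fin n} {ε ε' : Bool}
    (h : nf i j q a b ε = nf i j q a' b' ε') :
    (cellHom (t a b)).f q ε = (cellHom (t a' b')).f q ε' := by
  refine nf_congr (A := fun q => K.B q →₀ ℤ) hij (fun q a b ε => (cellHom (t a b)).f q ε)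
    ?_ ?_ ?_ ?_ h
  · intro q hq a a' b ε e
    obtain ⟨-, l⟩ := Cell.eq_of_tgt_eq_src i _ _ (ht.1 a a' b e)
    cases ε
    exacts [(l q hq).1, (l q hq).2]
  · intro a a' b e
    exact (Cell.eq_of_tgt_eq_src i _ _ (ht.1 a a' b e)).1
  · intro q hq a b b' ε e
    obtain ⟨-, l⟩ := Cell.eq_of_tgt_eq_src j _ _ (ht.2 a b b' e)
    cases ε
    exacts [(l q hq).1, (l q hq).2]
  · intro a b b' e
    exact (Cell.eq_of_tgt_eq_src j _ _ (ht.2 a b b' e)).1

/-- The map out of the grid of a family of cells. -/
def gridHom : CxHom (grid i j m n) K where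
  f q p := (cellHom (t (rep p).1 (rep p).2.1)).f q (rep p).2.2
  nonneg q p c := (cellHom _).nonneg q _ c
  comm q p := by
    have key : ∀ (a : Fin m) (b : Fin n) (ε : Bool),
        (cellHom (t (rep (gel (i := i) (j := j) (q := q) a b ε)).1
          (rep (gel (i := i) (j := j) (q := q) a b ε)).2.1)).f q
            (rep (gel (i := i) (j := j) (q := q) a b ε)).2.2 = (cellHom (t a b)).f q ε :=
      fun a b ε => gridVal_congr hij t ht (congrArg Subtype.val (gel_rep (gel a b ε)))
    refine ((cellHom (t (rep p).1 (rep p).2.1)).comm q (rep p).2.2).trans ?_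
    refine ((Finsupp.linearCombination_apply ..).symm.trans ?_).trans
      (Finsupp.linearCombination_apply ..)
    rw [map_sub, Finsupp.linearCombination_single, Finsupp.linearCombination_single, one_smul,
      one_smul, map_sub, Finsupp.linearCombination_single, Finsupp.linearCombination_single,
      one_smul, one_smul, key, key]
  aug p := (cellHom _).aug _

theorem gridHom_gel {q : ℕ} (a : Fin m) (b : Fin n) (ε : Bool) :
    (gridHom hij t ht).f q (gel a b ε) = (cellHom (t a b)).f q ε :=
  gridVal_congr hij t ht (congrArg Subtype.val (gel_rep (gel a b ε)))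

theorem incl_gridHom (a : Fin m) (b : Fin n) :
    (incl a b).andThen (gridHom hij t ht) = cellHom (t a b) := by
  refine CxHom.ext fun q ε => ?_
  show (gridHom hij t ht).app q (Finsupp.single (gel a b ε) 1) = _
  rw [CxHom.app_single, one_smul, gridHom_gel]

end

/-- The chains of the composite of the universal pair of globes. -/
def deltaFun (i q : ℕ) (ε : Bool) : GB i (i + 1) 2 1 q →₀ ℤ :=
  if q < i then Finsupp.single (gel 0 0 ε) 1
  else if q = i then Finsupp.single (gel (if ε then 1 else 0) 0 ε) 1
  else Finsupp.single (gel 0 0 ε) 1 + Finsupp.single (gel 1 0 ε) 1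

theorem bd_gel {q : ℕ} (a : Fin m) (b : Fin n) (ε : Bool) :
    bd (grid i j m n) q (Finsupp.single (gel a b ε) 1) =
      Finsupp.single (gel a b true) 1 - Finsupp.single (gel a b false) 1 := by
  rw [bd_single, one_smul, gd_gel]

/-- The composite of the universal pair of globes. -/
def delta (i : ℕ) : CxHom gw (grid i (i + 1) 2 1) where
  f := deltaFun i
  nonneg q ε c := by
    classical
    unfold deltaFun
    split_ifs <;> simp only [Finsupp.add_apply, Finsupp.single_apply] <;> split_ifs <;> simp
  comm q ε := by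
    refine (bd_apply (grid i (i + 1) 2 1) q _).symm.trans ?_
    rw [Finsupp.sum_sub_index (fun _ _ _ => sub_smul _ _ _), Finsupp.sum_single_index (by simp),
      Finsupp.sum_single_index (by simp), one_smul, one_smul]
    unfold deltaFun
    rcases lt_trichotomy (q + 1) i with h | h | h
    · simp (disch := omega) only [if_pos]
      rw [bd_gel]
    · simp (disch := omega) only [if_pos, if_neg]
      rw [bd_gel]
      congr 2 <;> refine Subtype.ext ?_ <;> simp [gel, nf, show q < i by omega]
    · simp (disch := omega) only [if_pos, if_neg]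
      rw [map_add, bd_gel, bd_gel]
      rcases (show i ≤ q by omega).lt_or_eq with h' | h'
      · simp (disch := omega) only [if_pos, if_neg]
        abel
      · subst h'
        have e : (gel 0 0 true : GB i (i + 1) 2 1 i) = gel 1 0 false :=
          Subtype.ext (by simp [gel, nf])
        simp [e]
  aug ε := by
    refine (eps_apply (grid i (i + 1) 2 1) _).symm.trans ?_
    unfold deltaFun
    rcases Nat.eq_zero_or_pos i with h | h
    · subst h
      simp (disch := omega) only [if_neg]
      exact (eps_single (grid 0 1 2 1) _ 1).trans (one_mul _)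
    · simp (disch := omega) only [if_pos]
      exact (eps_single (grid i (i + 1) 2 1) _ 1).trans (one_mul _)

/-- A composable pair as a family. -/
abbrev two {A : Type*} (x y : A) : Fin 2 → Fin 1 → A := fun a _ => if a = 0 then x else y

theorem adj_two {A : Type*} {P : A → A → Prop} {x y : A} (h : P x y) (a a' : Fin 2) (b : Fin 1)
    (e : (a : ℕ) + 1 = a') : P (two x y a b) (two x y a' b) := by
  obtain rfl : a = 0 := Fin.ext (by simp; omega)
  obtain rfl : a' = 1 := Fin.ext (by simp at e ⊢; omega)
  simpa [two] using h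

theorem adjCells_two {K : Cx} {i j : ℕ} {x y : Cell K} (h : x.tgt i = y.src i) :
    AdjCells i j (two x y) :=
  ⟨adj_two (P := fun u v : Cell K => Cell.tgt i u = Cell.src i v) h, fun _ b b' e => by omega⟩

theorem delta_gridHom {K : Cx} (i : ℕ) (x y : Cell K) (h : x.tgt i = y.src i) :
    (delta i).andThen (gridHom (Nat.lt_succ_self i) (two x y) (adjCells_two h)) =
      cellHom (Cell.comp i x y) := by
  refine CxHom.ext fun q ε => ?_
  obtain ⟨c1, c2⟩ := Cell.comp_of_eq h q
  show (gridHom _ _ _).app q (deltaFun i q ε) = _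
  unfold deltaFun
  have key : ∀ (a : Fin 2) (c : Bool),
      (gridHom (Nat.lt_succ_self i) (two x y) (adjCells_two h)).app q
        (Finsupp.single (gel a 0 c) 1) = (cellHom (two x y a 0)).f q c := fun a c => by
    rw [CxHom.app_single, one_smul, gridHom_gel]
  rcases lt_trichotomy q i with hq | hq | hq
  · simp (disch := omega) only [if_pos]
    rw [key]
    cases ε
    · exact ((c1.trans (if_pos hq.le))).symm
    · exact ((c2.trans (if_pos hq))).symm
  · simp (disch := omega) only [if_pos, if_neg]
    rw [key]
    cases ε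
    · exact ((c1.trans (if_pos hq.le))).symm
    · exact ((c2.trans ((if_neg (by omega)).trans (if_pos hq)))).symm
  · simp (disch := omega) only [if_pos, if_neg]
    rw [map_add, key, key]
    cases ε
    · exact ((c1.trans (if_neg (by omega)))).symm
    · exact ((c2.trans ((if_neg (by omega)).trans (if_neg (by omega))))).symm

/-- The cell of the globe at `(N, -)` in the globe `(a, b)` of the grid. -/
abbrev gc (N : ℕ) (a : Fin m) (b : Fin n) : Cell (grid i j m n) :=
  (gcell N false).map (incl a b)

theorem map_incl_gcell (a : Fin m) (b : Fin n) (N : ℕ) (c : Bool) (q : ℕ) :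
    ((gcell N c).map (incl (i := i) (j := j) a b)).neg q =
      (if q < N then Finsupp.single (gel a b false) 1
        else if q = N then Finsupp.single (gel a b c) 1 else 0) ∧
    ((gcell N c).map (incl (i := i) (j := j) a b)).pos q =
      (if q < N then Finsupp.single (gel a b true) 1
        else if q = N then Finsupp.single (gel a b c) 1 else 0) := by
  obtain ⟨e1, e2⟩ := atom_gw (n := N) c q
  refine ⟨(congrArg ((incl (i := i) (j := j) a b).app q) e1).trans ?_,
    (congrArg ((incl (i := i) (j := j) a b).app q) e2).trans ?_⟩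
  · rw [apply_ite ((incl (i := i) (j := j) a b).app q), apply_ite ((incl (i := i) (j := j) a b).app q),
      incl_app, incl_app, map_zero]
  · rw [apply_ite ((incl (i := i) (j := j) a b).app q), apply_ite ((incl (i := i) (j := j) a b).app q),
      incl_app, incl_app, map_zero]

theorem adjCells_gc (hij : i < j) {N : ℕ} (hN : j < N) :
    AdjCells i j (gc (i := i) (j := j) (m := m) (n := n) N) := by
  have key : ∀ (k : ℕ), k < N → ∀ (a a' : Fin m) (b b' : Fin n),
      (∀ q < k, ∀ ε, nf i j q a b ε = nf i j q a' b' ε) →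
      nf i j k a b true = nf i j k a' b' false →
      (gc (i := i) (j := j) N a b).tgt k = (gc (i := i) (j := j) N a' b').src k := by
    intro k hk a a' b b' h1 h2
    rw [← Cell.map_tgt, ← Cell.map_src]
    rw [show (gcell N false).tgt k = gcell k true from
        (face_gcell k N true false).trans (if_pos hk),
      show (gcell N false).src k = gcell k false from
        (face_gcell k N false false).trans (if_pos hk)]
    refine Cell.ext' fun q => ?_
    rw [(map_incl_gcell a b k true q).1, (map_incl_gcell a b k true q).2,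
      (map_incl_gcell a' b' k false q).1, (map_incl_gcell a' b' k false q).2]
    constructor <;> split_ifs with hq hq' <;>
      first
      | rfl
      | exact congrArg (Finsupp.single · 1) (Subtype.ext (h1 q hq _))
      | (subst hq'; exact congrArg (Finsupp.single · 1) (Subtype.ext h2))
  refine ⟨fun a a' b e => key i (hij.trans hN) a a' b b ?_ ?_,
    fun a b b' e => key j hN a a b b' ?_ ?_⟩
  · intro q hq ε; simp [nf, hq]
  · simp [nf]; omega
  · intro q hq ε; unfold nf; split_ifs <;> simp
  · simp [nf, hij.ne', show ¬ j < i by omega]; omega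

/-! ## Atoms of `I ⊗ K` -/

/-- The map on bases of `I ⊗ f`. -/
def ibMap {B B' : ℕ → Type} (g : ∀ q, B q → B' q) : ∀ q, IB B q → IB B' q
  | _, .pt δ b => .pt δ (g _ b)
  | _, .mid b => .mid (g _ b)

theorem ibMap_inj {B B' : ℕ → Type} (g : ∀ q, B q → B' q) (hg : ∀ q, (g q).Injective) (q : ℕ) :
    (ibMap g q).Injective := by
  intro x y h
  cases x with
  | pt δ b =>
    cases y with
    | pt δ' b' => simp [ibMap] at h; obtain ⟨rfl, h⟩ := h; rw [hg _ h]
    | mid b' => simp [ibMap] at h
  | mid b =>
    cases y with
    | pt δ' b' => simp [ibMap] at h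
    | mid b' => simp [ibMap] at h; rw [hg _ h]

theorem ivlMap_f {K L : Cx} (f : CxHom K L) (g : ∀ q, K.B q → L.B q)
    (hf : ∀ q c, f.f q c = Finsupp.single (g q c) 1) (q : ℕ) (c : (ivl K).B q) :
    (ivlMap f).f q c = Finsupp.single (ibMap g q c) 1 := by
  cases c with
  | pt δ b =>
    have := ivlMap_pt f δ q (Finsupp.single b 1)
    rw [ptL, ptL, Finsupp.lmapDomain_apply, Finsupp.lmapDomain_apply, Finsupp.mapDomain_single,
      show f.app q (Finsupp.single b 1) = Finsupp.single (g q b) 1 from
        (f.app_single q b 1).trans ((one_smul _ _).trans (hf q b)),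
      Finsupp.mapDomain_single] at this
    exact (one_smul ℤ _).symm.trans (((ivlMap f).app_single q (IB.pt δ b) 1).symm.trans this)
  | @mid k b =>
    have := ivlMap_mid f k (Finsupp.single b 1)
    rw [midL, midL, Finsupp.lmapDomain_apply, Finsupp.lmapDomain_apply, Finsupp.mapDomain_single,
      show f.app k (Finsupp.single b 1) = Finsupp.single (g k b) 1 from
        (f.app_single k b 1).trans ((one_smul _ _).trans (hf k b)),
      Finsupp.mapDomain_single] at this
    exact (one_smul ℤ _).symm.trans (((ivlMap f).app_single _ (IB.mid b) 1).symm.trans this)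

theorem atom_pt {K : Cx} (hK : Good K) (δ : Bool) {q : ℕ} (b : K.B q) :
    atom (good_ivl hK) (IB.pt δ b) = (atom hK b).map (ivlEnd K δ) := Cell.ext' fun r =>
  ⟨((atomNeg_pt δ b r).1).trans (ivlEnd_app δ r _).symm,
    ((atomNeg_pt δ b r).2).trans (ivlEnd_app δ r _).symm⟩

theorem map_atom_pt {K L : Cx} (hK : Good K) (hL : Good L) (f : CxHom K L) {q : ℕ} {b : K.B q}
    {b' : L.B q} (h : (atom hK b).map f = atom hL b') (δ : Bool) :
    (atom (good_ivl hK) (IB.pt δ b)).map (ivlMap f) = atom (good_ivl hL) (IB.pt δ b') := by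
  refine Cell.ext' fun r => ⟨?_, ?_⟩
  · show (ivlMap f).app r (atomNeg (ivl K) (IB.pt δ b) r) = atomNeg (ivl L) (IB.pt δ b') r
    rw [(atomNeg_pt δ b r).1, (atomNeg_pt δ b' r).1, ivlMap_pt]
    exact congrArg _ (congrArg (fun z => z.neg r) h)
  · show (ivlMap f).app r (atomPos (ivl K) (IB.pt δ b) r) = atomPos (ivl L) (IB.pt δ b') r
    rw [(atomNeg_pt δ b r).2, (atomNeg_pt δ b' r).2, ivlMap_pt]
    exact congrArg _ (congrArg (fun z => z.pos r) h)

theorem map_atom_mid_same {K L : Cx} (hK : Good K) (hL : Good L) (f : CxHom K L) {q : ℕ} {b : K.B q}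
    {b' : L.B q} (h : (atom hK b).map f = atom hL b') :
    (atom (good_ivl hK) (IB.mid b)).map (ivlMap f) = atom (good_ivl hL) (IB.mid b') := by
  have hn : ∀ r, f.app r (atomNeg K b r) = atomNeg L b' r := fun r =>
    congrArg (fun z => z.neg r) h
  have hp : ∀ r, f.app r (atomPos K b r) = atomPos L b' r := fun r =>
    congrArg (fun z => z.pos r) h
  refine Cell.ext' fun r => ?_
  show (ivlMap f).app r (atomNeg (ivl K) (IB.mid b) r) = atomNeg (ivl L) (IB.mid b') r ∧
    (ivlMap f).app r (atomPos (ivl K) (IB.mid b) r) = atomPos (ivl L) (IB.mid b') r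
  rcases r with _ | r
  · rw [(atom_mid_zero hK b).1, (atom_mid_zero hK b).2, (atom_mid_zero hL b').1,
      (atom_mid_zero hL b').2, ivlMap_pt, ivlMap_pt, hn, hp]
    exact ⟨rfl, rfl⟩
  · rcases le_or_gt r q with hr | hr
    · rw [(atom_mid hK b r hr).1, (atom_mid hK b r hr).2, (atom_mid hL b' r hr).1,
        (atom_mid hL b' r hr).2, map_add, map_add, ivlMap_pt, ivlMap_pt, ivlMap_mid, ivlMap_mid,
        hn, hn, hp, hp]
      exact ⟨rfl, rfl⟩
    · simp only [atomNeg, atomPos]
      rw [(down_above (K := ivl K) (show q + 1 < r + 1 by omega) _).1,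
        (down_above (K := ivl K) (show q + 1 < r + 1 by omega) _).2,
        (down_above (K := ivl L) (show q + 1 < r + 1 by omega) _).1,
        (down_above (K := ivl L) (show q + 1 < r + 1 by omega) _).2, map_zero]
      exact ⟨rfl, rfl⟩

end Vale.Agent.P213.Cyl
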