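import Vale.Agent.P213.Statement
import Vale.Agent.P213.Steiner.Chains
import Vale.Agent.P213.Steiner.TensorMaps
import Vale.Agent.P213.Steiner.GoodChains

/-!
# P213: the prism of a transformation

For a chain of `E` and a monotone `s : E → {0 < 1}` the map `aw s` sends `c` to its copy at the end
`s c₀`, plus the interior element of `c` without its first vertex when `s c₀ = 0` and `s c₁ = 1`.
It is a positive chain map into `I ⊗ chains E`, natural in `E`. Composed with the transpose of a
map into a cylinder object it gives a simplicial homotopy between the two ends.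
-/

open CategoryTheory MonoidalCategory Simplicial

noncomputable section

namespace Vale.Agent.P213

open Steiner

variable {E F : Type} [PartialOrder E] [PartialOrder F]

/-! ### The chain map of a monotone map -/

/-- The chain map of a monotone map. -/
def chainsHom (f : E →o F) : CxHom (chainsCx E) (chainsCx F) where
  f q c := c.push f
  nonneg q c d := by
    classical
    unfold Chain.push
    split_ifs
    · rw [Finsupp.single_apply]; split_ifs <;> simp
    · simp
  comm q c := by
    refine (bd_apply (chainsCx F) q (c.push f)).symm.trans ?_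
    rw [bd_chainsCx, bdry_push]
    show _ = Finsupp.sum (bdry q (Finsupp.single c 1)) fun d m => m • d.push f
    rw [bdry_single, one_smul, ← Finsupp.linearCombination_apply, map_sum]
    exact Finset.sum_congr rfl fun i _ => by
      rw [map_zsmul, Finsupp.linearCombination_single, one_smul]
  aug c := by
    have h : StrictMono (f ∘ c.1) := fun a b hab => absurd hab (by omega)
    rw [Chain.push, dif_pos h, Finsupp.sum_single_index (by simp), one_mul]

theorem chainsHom_app (f : E →o F) (q : ℕ) (v : Chain E q →₀ ℤ) :
    (chainsHom f).app q v = pushMap f q v := by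
  induction v using Finsupp.induction_linear with
  | zero => simp
  | add a b ha hb =>
    rw [map_add (pushMap f q), ← ha, ← hb]
    exact map_add ((chainsHom f).app q) a b
  | single c m => exact ((chainsHom f).app_single q c m).trans (pushMap_single f q c m).symm

theorem oriMap_eq (f : E →o F) :
    oriMap f = (nuChains E).inv ≫ nuMap (chainsHom f) ≫ (nuChains F).hom := by
  refine OmegaCat.Hom.ext (funext fun x => Table.ext' fun q => ⟨?_, ?_⟩)
  · exact (chainsHom_app f q (x.neg q)).symm
  · exact (chainsHom_app f q (x.pos q)).symm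

theorem nuChains_oriMap (f : E →o F) :
    (nuChains E).hom ≫ oriMap f = nuMap (chainsHom f) ≫ (nuChains F).hom := by
  rw [oriMap_eq, Iso.hom_inv_id_assoc]

/-! ### The prism -/

/-- The end of a vertex. -/
def bit (s : E →o Fin 2) (x : E) : Bool := decide (s x = 1)

theorem bit_mono (s : E →o Fin 2) {x y : E} (h : x ≤ y) (hx : bit s x = true) :
    bit s y = true := by
  simp only [bit, decide_eq_true_eq] at hx ⊢
  have h1 : s x ≤ s y := s.monotone h
  have h2 := (s y).2
  simp only [Fin.le_def, Fin.ext_iff, Fin.val_one] at hx h1 ⊢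
  omega

/-- The interior part of the prism. -/
def midPart (s : E →o Fin 2) (q : ℕ) (c : Chain E q) : IB (Chain E) q →₀ ℤ :=
  match q, c with
  | 0, _ => 0
  | q + 1, c =>
    if bit s (c.1 0) = false ∧ bit s (c.1 1) = true then Finsupp.single (IB.mid (c.face 0)) 1 else 0

/-- The values of the prism. -/
def awFun (s : E →o Fin 2) (q : ℕ) (c : Chain E q) : IB (Chain E) q →₀ ℤ :=
  Finsupp.single (IB.pt (bit s (c.1 0)) c) 1 + midPart s q c

theorem face_succ_zero {q : ℕ} (c : Chain E (q + 2)) (i : Fin (q + 2)) :
    (c.face i.succ).face 0 = (c.face 0).face i := by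
  refine Subtype.ext (funext fun a => ?_)
  simp [Chain.face]

theorem face_succ_apply_zero {q : ℕ} (c : Chain E (q + 1)) (i : Fin (q + 1)) :
    (c.face i.succ).1 0 = c.1 0 := by
  simp [Chain.face, Fin.succAbove_ne_zero_zero (Fin.succ_ne_zero i)]

theorem face_zero_apply {q : ℕ} (c : Chain E (q + 1)) (a : Fin (q + 1)) :
    (c.face 0).1 a = c.1 a.succ := by
  simp [Chain.face]

theorem ptL_bdry (ε : Bool) (q : ℕ) (c : Chain E (q + 1)) :
    ptL (chainsCx E) ε q (bdry q (Finsupp.single c 1)) =
      ∑ i : Fin (q + 2), ((-1 : ℤ) ^ (i : ℕ)) • Finsupp.single (IB.pt ε (c.face i)) (1 : ℤ) := by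
  rw [bdry_single, one_smul, map_sum]
  exact Finset.sum_congr rfl fun i _ => by
    rw [map_zsmul, ptL, Finsupp.lmapDomain_apply, Finsupp.mapDomain_single]

theorem sum_midPart (s : E →o Fin 2) (q : ℕ) (c : Chain E (q + 1)) :
    ∑ i : Fin (q + 2), ((-1 : ℤ) ^ (i : ℕ)) • midPart s q (c.face i) =
      if bit s (c.1 0) = false ∧ bit s (c.1 1) = true then
        -midBd (chainsCx E) q (Finsupp.single (c.face 0) 1) else 0 := by
  cases q with
  | zero => simp [midPart, midBd]
  | succ q =>
    have h12 : c.1 1 ≤ c.1 2 := c.2.monotone (by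
      show (1 : ℕ) ≤ 2 % (q + 3)
      rw [Nat.mod_eq_of_lt (by omega)]; omega)
    have h01 : c.1 0 ≤ c.1 1 := c.2.monotone (Fin.zero_le _)
    have e0 : (c.face 0).1 0 = c.1 1 ∧ (c.face 0).1 1 = c.1 2 := by
      simp [face_zero_apply]
    have e1 : (c.face (Fin.succ 0)).1 0 = c.1 0 ∧ (c.face (Fin.succ 0)).1 1 = c.1 2 := by
      refine ⟨face_succ_apply_zero c 0, ?_⟩
      simp [Chain.face, Fin.succAbove]
    have e2 : ∀ i : Fin (q + 1), (c.face i.succ.succ).1 0 = c.1 0 ∧
        (c.face i.succ.succ).1 1 = c.1 1 := by
      refine fun i => ⟨face_succ_apply_zero c i.succ, ?_⟩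
      simp [Chain.face, Fin.succAbove, Fin.lt_def]
    rw [Fin.sum_univ_succ, Fin.sum_univ_succ]
    simp only [midPart, e0, e1, e2, face_succ_zero]
    by_cases h : bit s (c.1 0) = false ∧ bit s (c.1 1) = true
    · have h2 := bit_mono s h12 h.2
      have hm : midBd (chainsCx E) (q + 1) (Finsupp.single (c.face 0) 1) =
          ∑ j : Fin (q + 2), ((-1 : ℤ) ^ (j : ℕ)) •
            Finsupp.single (IB.mid ((c.face 0).face j)) (1 : ℤ) := by
        show midL (chainsCx E) q (bd (chainsCx E) q (Finsupp.single (c.face 0) 1)) = _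
        rw [bd_chainsCx, bdry_single, one_smul, map_sum]
        exact Finset.sum_congr rfl fun i _ => by
          rw [map_zsmul, midL, Finsupp.lmapDomain_apply, Finsupp.mapDomain_single]
      rw [if_pos h, if_neg (by simp [h.2]), if_pos ⟨h.1, h2⟩, hm]
      conv_rhs => rw [Fin.sum_univ_succ]
      simp [h.1, h.2, pow_succ, ← Finset.sum_neg_distrib]
      exact add_comm _ _
    · simp only [if_neg h, smul_zero, Finset.sum_const_zero, add_zero]
      cases h0 : bit s (c.1 0) with
      | true => simp [bit_mono s h01 h0]
      | false =>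
        have h1 : bit s (c.1 1) = false := by simpa [h0] using h
        split_ifs <;> simp_all [pow_succ]

/-- The prism as a positive chain map. -/
def aw (s : E →o Fin 2) : CxHom (chainsCx E) (ivl (chainsCx E)) where
  f := awFun s
  nonneg q c x := by
    classical
    have hs : ∀ y : IB (Chain E) q, 0 ≤ Finsupp.single y (1 : ℤ) x := fun y => by
      rw [Finsupp.single_apply]; split_ifs <;> simp
    cases q with
    | zero => simpa [awFun, midPart] using hs _
    | succ q =>
      simp only [awFun, midPart, Finsupp.add_apply]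
      split_ifs
      · exact add_nonneg (hs _) (by rw [Finsupp.single_apply]; split_ifs <;> simp)
      · simpa using hs _
  comm q c := by
    refine (bd_apply (ivl (chainsCx E)) q (awFun s (q + 1) c)).symm.trans ?_
    show bd (ivl (chainsCx E)) q (Finsupp.single (IB.pt (bit s (c.1 0)) c) 1 + midPart s (q + 1) c)
      = Finsupp.sum (bdry q (Finsupp.single c 1)) fun d m => m • awFun s q d
    rw [← Finsupp.linearCombination_apply, map_add, bdry_single, one_smul, map_sum]
    have hr : ∀ i : Fin (q + 2), Finsupp.linearCombination ℤ (awFun s q)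
        (((-1 : ℤ) ^ (i : ℕ)) • Finsupp.single (c.face i) (1 : ℤ)) =
        ((-1 : ℤ) ^ (i : ℕ)) • Finsupp.single (IB.pt (bit s ((c.face i).1 0)) (c.face i)) (1 : ℤ) +
          ((-1 : ℤ) ^ (i : ℕ)) • midPart s q (c.face i) := fun i => by
      rw [map_zsmul, Finsupp.linearCombination_single, one_smul, awFun, smul_add]
    rw [Finset.sum_congr rfl fun i _ => hr i, Finset.sum_add_distrib, sum_midPart, bd_single,
      one_smul]
    have hd : (ivl (chainsCx E)).d q (IB.pt (bit s (c.1 0)) c) =
        ptL (chainsCx E) (bit s (c.1 0)) q (bdry q (Finsupp.single c 1)) := rfl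
    rw [hd, ptL_bdry, Fin.sum_univ_succ, Fin.sum_univ_succ (n := q + 1)]
    simp only [face_zero_apply, face_succ_apply_zero, Fin.succ_zero_eq_one, Fin.val_zero, pow_zero,
      one_smul]
    simp only [midPart]
    by_cases h : bit s (c.1 0) = false ∧ bit s (c.1 1) = true
    · have hmid : bd (ivl (chainsCx E)) q (Finsupp.single (IB.mid (c.face 0)) 1) =
          Finsupp.single (IB.pt true (c.face 0)) 1 - Finsupp.single (IB.pt false (c.face 0)) 1 -
            midBd (chainsCx E) q (Finsupp.single (c.face 0) 1) := by
        rw [bd_single, one_smul]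
        show ptL (chainsCx E) true q (Finsupp.single (c.face 0) 1) -
          ptL (chainsCx E) false q (Finsupp.single (c.face 0) 1) - _ = _
        simp only [ptL, Finsupp.lmapDomain_apply, Finsupp.mapDomain_single]
      rw [if_pos h, if_pos h, hmid, h.1, h.2]
      abel
    · have he : bit s (c.1 1) = bit s (c.1 0) := by
        cases h0 : bit s (c.1 0)
        · simpa [h0] using h
        · exact bit_mono s (c.2.monotone (Fin.zero_le _)) h0
      rw [if_neg h, if_neg h, map_zero, add_zero, add_zero, he]
  aug c := by
    simp [awFun, midPart]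

theorem awFun_push (f : E →o F) (s : F →o Fin 2) (q : ℕ) (c : Chain E q) :
    (ivlMap (chainsHom f)).app q (awFun (s.comp f) q c) = (aw s).app q (c.push f) := by
  classical
  have hb : ∀ x, bit (s.comp f) x = bit s (f x) := fun _ => rfl
  have h1 : ∀ q (c : Chain E q), (chainsHom f).app q (Finsupp.single c 1) = c.push f :=
    fun q c => ((chainsHom f).app_single q c 1).trans (one_smul _ _)
  have hpt : ∀ ε, (ivlMap (chainsHom f)).app q (Finsupp.single (IB.pt ε c) 1) =
      ptL (chainsCx F) ε q (c.push f) := fun ε => by
    have := ivlMap_pt (chainsHom f) ε q (Finsupp.single c 1)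
    rw [h1 q c, ptL, Finsupp.lmapDomain_apply, Finsupp.mapDomain_single] at this
    exact this
  rw [awFun, map_add, hpt]
  by_cases hc : StrictMono (f ∘ c.1)
  · rw [Chain.push, dif_pos hc, CxHom.app_single, one_smul, ptL, Finsupp.lmapDomain_apply,
      Finsupp.mapDomain_single]
    show _ = awFun s q _
    rw [awFun]
    congr 1
    cases q with
    | zero => simp [midPart]
    | succ q =>
      simp only [midPart, Function.comp_apply, hb]
      split_ifs
      · have := ivlMap_mid (chainsHom f) q (Finsupp.single (c.face 0) 1)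
        rw [h1 q (c.face 0), midL, Finsupp.lmapDomain_apply, Finsupp.mapDomain_single] at this
        refine this.trans ?_
        show midL (chainsCx F) q ((c.face 0).push f) = _
        rw [Chain.push, dif_pos (show StrictMono (f ∘ (c.face 0).1) from
          hc.comp (Fin.strictMono_succAbove 0)), midL, Finsupp.lmapDomain_apply,
          Finsupp.mapDomain_single]
        rfl
      · simp
  · rw [Chain.push, dif_neg hc]
    cases q with
    | zero => exact absurd (fun a b hab => absurd hab (by omega)) hc
    | succ q =>
      simp only [midPart, map_zero, zero_add, hb]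
      split_ifs with h
      · have := ivlMap_mid (chainsHom f) q (Finsupp.single (c.face 0) 1)
        rw [h1 q (c.face 0), midL, Finsupp.lmapDomain_apply, Finsupp.mapDomain_single] at this
        refine this.trans ?_
        show midL (chainsCx F) q ((c.face 0).push f) = _
        rw [Chain.push, dif_neg, map_zero]
        intro hm
        refine hc (Fin.strictMono_iff_lt_succ.2 fun j => ?_)
        induction j using Fin.cases with
        | zero =>
          refine lt_of_le_of_ne (f.monotone (c.2.monotone (Fin.zero_le _))) fun e => ?_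
          have e' : f (c.1 0) = f (c.1 1) := by simpa using e
          rw [e'] at h
          simp at h
        | succ j =>
          have := hm (Fin.castSucc_lt_succ (i := j))
          simpa [face_zero_apply, Fin.castSucc_succ] using this
      · simp

theorem aw_natural (f : E →o F) (s : F →o Fin 2) :
    (aw (s.comp f)).andThen (ivlMap (chainsHom f)) = (chainsHom f).andThen (aw s) :=
  CxHom.ext fun q c => awFun_push f s q c

theorem aw_const (s : E →o Fin 2) (ε : Bool) (h : ∀ x, bit s x = ε) :
    aw s = ivlEnd (chainsCx E) ε := by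
  refine CxHom.ext fun q c => ?_
  show awFun s q c = Finsupp.single (IB.pt ε c) 1
  cases q with
  | zero => simp [awFun, midPart, h]
  | succ q => cases ε <;> simp [awFun, midPart, h]

/-! ### The homotopy -/

section Homotopy

variable {Γ Y : OmegaCat} (e : Bool → (Γ ⟶ Y))
  (unc : ∀ K : Cx, Good K → (nu K ⟶ Γ) → (nu (ivl K) ⟶ Y))

/-- The value of the homotopy on a simplex. -/
def prism {m : ℕ} (H : ori (Fin (m + 1)) ⟶ Γ) (s : Fin (m + 1) →o Fin 2) :
    ori (Fin (m + 1)) ⟶ Y :=
  (nuChains _).inv ≫ nuMap (aw s) ≫ unc _ (good_chains_fin _) ((nuChains _).hom ≫ H)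

theorem prism_natural
    (hnat : ∀ {K L : Cx} (hK : Good K) (hL : Good L) (f : CxHom K L) (H : nu L ⟶ Γ),
      nuMap (ivlMap f) ≫ unc L hL H = unc K hK (nuMap f ≫ H))
    {j m : ℕ} (f : Fin (j + 1) →o Fin (m + 1)) (H : ori (Fin (m + 1)) ⟶ Γ)
    (s : Fin (m + 1) →o Fin 2) :
    prism unc (oriMap f ≫ H) (s.comp f) = oriMap f ≫ prism unc H s := by
  simp only [prism]
  rw [← Category.assoc (nuChains (Fin (j + 1))).hom (oriMap f) H, nuChains_oriMap, Category.assoc,
    ← hnat (good_chains_fin _) (good_chains_fin _), ← Category.assoc (nuMap (aw (s.comp f))),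
    ← nuMap_andThen, aw_natural, nuMap_andThen, oriMap_eq f]
  simp only [Category.assoc, Iso.hom_inv_id_assoc]

theorem prism_const
    (hend : ∀ {K : Cx} (hK : Good K) (ε : Bool) (H : nu K ⟶ Γ),
      nuMap (ivlEnd K ε) ≫ unc K hK H = H ≫ e ε)
    {m : ℕ} (H : ori (Fin (m + 1)) ⟶ Γ) (s : Fin (m + 1) →o Fin 2) (ε : Bool)
    (h : ∀ x, bit s x = ε) : prism unc H s = H ≫ e ε := by
  simp only [prism]
  rw [aw_const s ε h, hend (good_chains_fin _), Category.assoc, Iso.inv_hom_id_assoc]

/-- The homotopy on the product with the interval. -/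
def prismMap
    (hnat : ∀ {K L : Cx} (hK : Good K) (hL : Good L) (f : CxHom K L) (H : nu L ⟶ Γ),
      nuMap (ivlMap f) ≫ unc L hL H = unc K hK (nuMap f ≫ H)) :
    nerve.obj Γ ⊗ Δ[1] ⟶ nerve.obj Y where
  app m := ↾fun x => ULift.up (prism unc x.1.down (SSet.stdSimplex.asOrderHom x.2))
  naturality m k f := by
    ext x
    refine ULift.ext _ _ ?_
    exact prism_natural unc hnat f.unop.toOrderHom x.1.down (SSet.stdSimplex.asOrderHom x.2)

/-- The two ends are homotopic after taking nerves. -/
theorem htpc_of_uncurry
    (hnat : ∀ {K L : Cx} (hK : Good K) (hL : Good L) (f : CxHom K L) (H : nu L ⟶ Γ),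
      nuMap (ivlMap f) ≫ unc L hL H = unc K hK (nuMap f ≫ H))
    (hend : ∀ {K : Cx} (hK : Good K) (ε : Bool) (H : nu K ⟶ Γ),
      nuMap (ivlEnd K ε) ≫ unc K hK H = H ≫ e ε) :
    Htpc (nerve.map (e false)) (nerve.map (e true)) :=
  ⟨SSet.RelativeMorphism.Homotopy.mk (prismMap unc hnat)
    (by
      ext m x
      refine ULift.ext _ _ ?_
      exact prism_const e unc hend x.down _ false fun k => by
        simp [bit, SSet.stdSimplex.asOrderHom]
        rfl)
    (by
      ext m x
      refine ULift.ext _ _ ?_
      exact prism_const e unc hend x.down _ true fun k => by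
        simp [bit, SSet.stdSimplex.asOrderHom]
        rfl)
    (by ext m x; exact x.1.2.elim)⟩

end Homotopy

/-- Homotopic maps act in the same way on homotopy classes. -/
theorem precompClass_eq_of_single {X Z : SSet.{0}} {f g : X ⟶ Z} (h : Htpc f g) (K : SSet.{0}) :
    precompClass f K = precompClass g K := by
  obtain ⟨H⟩ := h
  refine funext fun c => Quot.inductionOn c fun φ => Quot.sound ?_
  exact ⟨SSet.RelativeMorphism.Homotopy.mk (H.h ≫ φ)
    (by simp [SSet.RelativeMorphism.botEquiv]) (by simp [SSet.RelativeMorphism.botEquiv])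
    (by ext m x; exact x.1.2.elim)⟩

end Vale.Agent.P213
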