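import Vale.Agent.P213.Step.Trans
import Vale.Agent.P213.Steiner.Chains
import Vale.Agent.P213.Steiner.TensorMaps

/-!
# P213, Cyl: positive homotopies between chain maps of orientals give cylinders

`CurryData c` is what the transpose `(nu (I ⊗ K) ⟶ Y) → (nu K ⟶ G Y)` supplies; it gives
`TransData c`.
-/

open CategoryTheory

noncomputable section

namespace Vale.Agent.P213

open Steiner

/-- What the transpose into the path object supplies. -/
structure CurryData (c : CylData) : Type 1 where
  curry : ∀ {K : Cx} {Y : OmegaCat}, (nu (ivl K) ⟶ Y) → (nu K ⟶ c.G.obj Y)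
  curry_ev₀ : ∀ {K : Cx} {Y : OmegaCat} (F : nu (ivl K) ⟶ Y),
    curry F ≫ c.ev₀.app Y = nuMap (ivlEnd K false) ≫ F
  curry_ev₁ : ∀ {K : Cx} {Y : OmegaCat} (F : nu (ivl K) ⟶ Y),
    curry F ≫ c.ev₁.app Y = nuMap (ivlEnd K true) ≫ F
  nuMap_curry : ∀ {K L : Cx} {Y : OmegaCat} (f : CxHom K L) (F : nu (ivl L) ⟶ Y),
    nuMap f ≫ curry F = curry (nuMap (ivlMap f) ≫ F)
  curry_map : ∀ {K : Cx} {Y Z : OmegaCat} (F : nu (ivl K) ⟶ Y) (g : Y ⟶ Z),
    curry F ≫ c.G.map g = curry (F ≫ g)
  curry_proj : ∀ {K : Cx} {Y : OmegaCat} (g : nu K ⟶ Y),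
    curry (nuMap (ivlProj K) ≫ g) = g ≫ c.cst.app Y

variable {E F : Type} [PartialOrder E] [PartialOrder F]

theorem zsmul_single_one {α : Type} (a : α) (m : ℤ) :
    m • Finsupp.single a (1 : ℤ) = Finsupp.single a m := by simp

/-- A positive chain map of complexes of chains, on the bases. -/
def ChainHom.toCx (u : ChainHom E F) : CxHom (chainsCx E) (chainsCx F) where
  f q b := u.f q (Finsupp.single b 1)
  nonneg q b c := u.nonneg q _
    (fun x => by classical rw [Finsupp.single_apply]; split_ifs <;> simp) c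
  comm q b := by
    refine (bd_apply (chainsCx F) q _).symm.trans ((bd_chainsCx F q _).trans ?_)
    rw [u.comm]
    conv_lhs => rw [← Finsupp.sum_single (bdry q (Finsupp.single b 1))]
    rw [map_finsuppSum]
    exact Finsupp.sum_congr fun c _ => by rw [← map_zsmul, zsmul_single_one]
  aug b := by
    refine (eps_apply (chainsCx F) _).symm.trans ((eps_chainsCx F _).trans ?_)
    rw [u.aug_eq, ← eps_chainsCx]
    exact (eps_single (chainsCx E) b 1).trans (one_mul _)

theorem ChainHom.toCx_app (u : ChainHom E F) (q : ℕ) (v : Chain E q →₀ ℤ) :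
    u.toCx.app q v = u.f q v := by
  induction v using Finsupp.induction_linear with
  | zero => exact (map_zero _).trans (map_zero _).symm
  | add a b ha hb =>
    exact (map_add (u.toCx.app q) a b).trans ((congrArg₂ (· + ·) ha hb).trans (map_add _ _ _).symm)
  | single b m =>
    refine (u.toCx.app_single q b m).trans ?_
    show m • u.f q (Finsupp.single b 1) = _
    rw [← map_zsmul, zsmul_single_one]

theorem toTable_map (u : ChainHom E F) (x : Cell (chainsCx E)) :
    toTable (x.map u.toCx) = u.table (toTable x) :=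
  Table.ext' fun q => ⟨u.toCx_app q _, u.toCx_app q _⟩

theorem nuMap_toCx (u : ChainHom E F) :
    nuMap u.toCx ≫ (nuChains F).hom = (nuChains E).hom ≫ oriLin u :=
  OmegaCat.Hom.ext (funext (toTable_map u))

theorem inv_nuMap_toCx (u : ChainHom E F) :
    (nuChains E).inv ≫ nuMap u.toCx ≫ (nuChains F).hom = oriLin u := by
  rw [nuMap_toCx, Iso.inv_hom_id_assoc]

theorem inv_nuMap_ofMap (φ : E →o F) :
    oriMap φ ≫ (nuChains F).inv = (nuChains E).inv ≫ nuMap (ChainHom.ofMap φ).toCx := by
  rw [Iso.comp_inv_eq, Category.assoc, inv_nuMap_toCx, oriLin_ofMap]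

namespace ChainTrans

variable {u v : ChainHom E F} (t : ChainTrans u v)

theorem hLin_eq (q : ℕ) (w : Chain E q →₀ ℤ) :
    hLin (K := chainsCx E) (L := chainsCx F) (fun q b => t.h q (Finsupp.single b 1)) q w =
      t.h q w := by
  induction w using Finsupp.induction_linear with
  | zero => exact (map_zero _).trans (map_zero _).symm
  | add a b ha hb =>
    exact (map_add (hLin (K := chainsCx E) (L := chainsCx F)
      (fun q b => t.h q (Finsupp.single b 1)) q) a b).trans
      ((congrArg₂ (· + ·) ha hb).trans (map_add _ _ _).symm)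
  | single b m =>
    refine (hLin_single (K := chainsCx E) (L := chainsCx F)
      (fun q b => t.h q (Finsupp.single b 1)) q b m).trans ?_
    rw [← map_zsmul, zsmul_single_one]

/-- The homotopy as a chain map out of the cylinder. -/
def toCx : CxHom (ivl (chainsCx E)) (chainsCx F) :=
  ofHtpy u.toCx v.toCx (fun q b => t.h q (Finsupp.single b 1))
    (fun q b => t.nonneg q _ fun x => by classical rw [Finsupp.single_apply]; split_ifs <;> simp)
    (fun b => (bd_chainsCx F 0 _).trans (t.zero _))
    (fun q b => by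
      rw [bd_chainsCx, hLin_eq]
      exact t.succ q _)

theorem toCx_pt (ε : Bool) (q : ℕ) (w : Chain E q →₀ ℤ) :
    t.toCx.app q (ptL (chainsCx E) ε q w) = if ε then v.f q w else u.f q w := by
  rw [toCx, ofHtpy_app_pt]
  cases ε
  exacts [u.toCx_app q w, v.toCx_app q w]

theorem toCx_mid (q : ℕ) (w : Chain E q →₀ ℤ) :
    t.toCx.app (q + 1) (midL (chainsCx E) q w) = t.h q w := by
  rw [toCx, ofHtpy_app_mid]
  exact t.hLin_eq q w

theorem toCx_natural {E' F' : Type} [PartialOrder E'] [PartialOrder F'] (φ : E →o E')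
    (ψ : F →o F') {u' v' : ChainHom E' F'} (t' : ChainTrans u' v')
    (hu : u.andThen (ChainHom.ofMap ψ) = (ChainHom.ofMap φ).andThen u')
    (hv : v.andThen (ChainHom.ofMap ψ) = (ChainHom.ofMap φ).andThen v')
    (hh : ∀ q w, pushMap ψ (q + 1) (t.h q w) = t'.h q (pushMap φ q w)) :
    t.toCx.andThen (ChainHom.ofMap ψ).toCx =
      (ivlMap (ChainHom.ofMap φ).toCx).andThen t'.toCx := by
  refine ivl_ext (fun ε q w => ?_) (fun q w => ?_)
  · rw [CxHom.andThen_app, CxHom.andThen_app, ivlMap_pt, toCx_pt, toCx_pt, ChainHom.toCx_app,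
      ChainHom.toCx_app]
    cases ε
    · exact congrArg (fun z : ChainHom E F' => z.f q w) hu
    · exact congrArg (fun z : ChainHom E F' => z.f q w) hv
  · rw [CxHom.andThen_app, CxHom.andThen_app, ivlMap_mid, toCx_mid, toCx_mid, ChainHom.toCx_app,
      ChainHom.toCx_app]
    exact hh q w

end ChainTrans

theorem ChainTrans.toCx_const {D : Type} [PartialOrder D] (φ : D →o E) {u v : ChainHom E E}
    (t : ChainTrans u v) (hu : ∀ q w, u.f q (pushMap φ q w) = pushMap φ q w)
    (hv : ∀ q w, v.f q (pushMap φ q w) = pushMap φ q w)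
    (hh : ∀ q w, t.h q (pushMap φ q w) = 0) :
    (ivlMap (ChainHom.ofMap φ).toCx).andThen t.toCx =
      (ivlProj (chainsCx D)).andThen (ChainHom.ofMap φ).toCx := by
  refine ivl_ext (fun ε q w => ?_) (fun q w => ?_)
  · rw [CxHom.andThen_app, CxHom.andThen_app, ivlMap_pt, ivlProj_pt, t.toCx_pt, ChainHom.toCx_app]
    cases ε
    · exact hu q w
    · exact hv q w
  · rw [CxHom.andThen_app, CxHom.andThen_app, ivlMap_mid, ivlProj_mid, map_zero, t.toCx_mid,
      ChainHom.toCx_app]
    exact hh q w

namespace CurryData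

variable {c : CylData} (C : CurryData c)

/-- The cylinder of a positive homotopy. -/
def cylMap {u v : ChainHom E F} (t : ChainTrans u v) : ori E ⟶ c.G.obj (ori F) :=
  (nuChains E).inv ≫ C.curry (nuMap t.toCx ≫ (nuChains F).hom)

/-- The transformations of positive homotopies. -/
def transData : TransData c where
  cyl := C.cylMap
  cyl_ev₀ {E F _ _ u v} t := by
    rw [cylMap, Category.assoc, C.curry_ev₀, ← Category.assoc (nuMap _) (nuMap _), ← nuMap_andThen,
      ChainTrans.toCx, (end_ofHtpy ..).1, inv_nuMap_toCx]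
  cyl_ev₁ {E F _ _ u v} t := by
    rw [cylMap, Category.assoc, C.curry_ev₁, ← Category.assoc (nuMap _) (nuMap _), ← nuMap_andThen,
      ChainTrans.toCx, (end_ofHtpy ..).2, inv_nuMap_toCx]
  cyl_natural {E F E' F' _ _ _ _} φ ψ {u v u' v'} t t' hu hv hh := by
    rw [cylMap, cylMap, Category.assoc, C.curry_map, Category.assoc, ← oriLin_ofMap ψ,
      ← nuMap_toCx, ← Category.assoc (nuMap _) (nuMap _), ← nuMap_andThen,
      t.toCx_natural φ ψ t' hu hv hh, nuMap_andThen, Category.assoc, ← C.nuMap_curry,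
      ← Category.assoc (oriMap φ), inv_nuMap_ofMap, Category.assoc]
  cyl_const {D E _ _} φ {u v} t hu hv hh := by
    rw [cylMap, ← Category.assoc (oriMap φ), inv_nuMap_ofMap, Category.assoc, C.nuMap_curry,
      ← Category.assoc (nuMap _) (nuMap _), ← nuMap_andThen, t.toCx_const φ hu hv hh, nuMap_andThen,
      Category.assoc, C.curry_proj, ← Category.assoc, inv_nuMap_toCx, oriLin_ofMap]

end CurryData

end Vale.Agent.P213
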